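import Vale.Agent.N313M.Sim

/-! Deterministic machines with output from programs with bounded registers. -/

namespace Vale.Agent.N313M

open Finset Function Vale.Agent.Lib.Space Vale.Agent.P313 Vale.Agent.P313.Red Vale.Agent.N313

variable {A T : Type}

/-- The sign of a move. -/
def vm : Move → SignType
  | .left => .neg
  | .stay => .zero
  | .right => .pos

theorem mv_vm (m : Move) : mv (vm m) = m := by cases m <;> rfl

/-- Translation of the input symbols. -/
def ys : A ⊕ Bool → InSym A
  | .inl a => .letter a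
  | .inr false => .first
  | .inr true => .last

theorem ys_sy (a : InSym A) : ys (sy a) = a := by cases a <;> rfl

/-- The two bits of a symbol. -/
def bt (z : Option Bool) (b : Bool) : Bool := bif b then z.getD false else z.isSome

/-- The symbol with given bits. -/
def tb (u v : Bool) : Option Bool := bif u then some v else none

theorem tb_bt (z : Option Bool) : tb (bt z false) (bt z true) = z := by
  rcases z with _ | _ | _ <;> rfl

/-- Runs of a fragment with output. -/
inductive RO (G : Frag A T) (e : G.Q → (T → Option Bool) → Option Bool) (x : List A) (S : ℕ) :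
    G.Q → Mem T → G.Q → Mem T → List Bool → Prop
  | refl (q : G.Q) (m : Mem T) : m.In S → RO G e x S q m q m []
  | step {q q' q'' : G.Q} {m m'' : Mem T} {z : Act T} {o : List Bool} : m.In S →
      G.step q (inAt x m.inHead) m.scan = some (q', z) →
      RO G e x S q' (m.apply x.length z) q'' m'' o → RO G e x S q m q'' m'' ((e q m.scan).toList ++ o)

variable {G : Frag A T} {e : G.Q → (T → Option Bool) → Option Bool} {x : List A} {S : ℕ}

theorem RO.trans {q q' q'' : G.Q} {m m' m'' : Mem T} {o o' : List Bool}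
    (h : RO G e x S q m q' m' o) (h' : RO G e x S q' m' q'' m'' o') :
    RO G e x S q m q'' m'' (o ++ o') := by
  induction h with
  | refl => exact h'
  | step hi hs _ ih =>
    rw [List.append_assoc]
    exact .step hi hs (ih h')

theorem RO.jump {q q' : G.Q} {m : Mem T} (hi : m.In S)
    (h : G.step q (inAt x m.inHead) m.scan = some (q', noop m.scan)) :
    RO G e x S q m q' m (e q m.scan).toList := by
  have := RO.step (e := e) hi h (o := []) (q'' := q') (m'' := m) (by
    rw [Mem.apply_noop]
    exact .refl _ _ hi)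
  rwa [List.append_nil] at this

theorem RO.lift {F : Frag A T} (ι : F.Q → G.Q)
    (he : ∀ q a r q' z, F.step q a r = some (q', z) → G.step (ι q) a r = some (ι q', z))
    (h0 : ∀ q r, e (ι q) r = none) {q q' : F.Q} {m m' : Mem T} (h : Reach F x S q m q' m') :
    RO G e x S (ι q) m (ι q') m' [] := by
  induction h with
  | refl _ _ hi => exact .refl _ _ hi
  | step hi hs _ ih =>
    have := RO.step (e := e) hi (he _ _ _ _ _ hs) ih
    rwa [h0] at this

theorem RO.in_left {q q' : G.Q} {m m' : Mem T} {o : List Bool} (h : RO G e x S q m q' m' o) :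
    m.In S := by
  cases h with
  | refl _ _ hi => exact hi
  | step hi _ _ => exact hi

section mach

variable [Finite T]

/-- The numbers of the binary tapes. -/
noncomputable def nb (T : Type) [Finite T] : T × Bool ≃ Fin (Nat.card (T × Bool)) :=
  Finite.equivFin _

/-- The scanned symbols from the scanned bits. -/
noncomputable def dsc (r : Fin (Nat.card (T × Bool)) → Bool) (i : T) : Option Bool :=
  tb (r (nb T (i, false))) (r (nb T (i, true)))

/-- The machine of a fragment with outputs `e` and the final answer `c`. -/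
noncomputable def fm (G : Frag A T) (e : G.Q → (T → Option Bool) → Option Bool)
    (c : (T → Option Bool) → Bool) : Machine A where
  Q := G.Q ⊕ Bool
  fin := by
    have := G.fin
    infer_instance
  k := Nat.card (T × Bool)
  start := .inl G.start
  answer := Sum.elim (fun _ => none) some
  δ q a r _ :=
    match q with
    | .inr d => (.inr d, 0, fun j => (r j, 0), none)
    | .inl q =>
      match G.step q (ys a) (dsc r) with
      | none => (.inr (c (dsc r)), 0, fun j => (r j, 0), none)
      | some (q', z) => (.inl q', vm z.1, fun j =>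
          (bt (z.2 ((nb T).symm j).1).1 ((nb T).symm j).2, vm (z.2 ((nb T).symm j).1).2),
          e q (dsc r))

variable {c : (T → Option Bool) → Bool}

theorem conf_ext {M : Machine A} {a b : M.Conf} (h1 : a.q = b.q) (h2 : a.pos = b.pos)
    (h3 : a.tape = b.tape) (h4 : a.head = b.head) (h5 : a.out = b.out) : a = b := by
  cases a
  cases b
  simp_all

/-- The configuration of the machine. -/
noncomputable def gc (c : (T → Option Bool) → Bool) (q : G.Q ⊕ Bool) (m : Mem T) (o : List Bool) :
    (fm G e c).Conf :=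
  ⟨q, m.inHead, fun j p => bt (m.tape ((nb T).symm j).1 p) ((nb T).symm j).2,
    fun j => m.head ((nb T).symm j).1, o⟩

theorem dsc_gc (q : G.Q ⊕ Bool) (m : Mem T) (o : List Bool) :
    dsc (fun j => (gc (e := e) c q m o).tape j ((gc (e := e) c q m o).head j)) = m.scan := by
  funext i
  simp only [dsc, gc, Equiv.symm_apply_apply, tb_bt, Mem.scan]

theorem step_gc {q q' : G.Q} {m : Mem T} {z : Act T} (o : List Bool) (b : Bool)
    (hm : m.inHead ≤ x.length + 1) (h : G.step q (inAt x m.inHead) m.scan = some (q', z)) :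
    (fm G e c).step x (gc c (.inl q) m o) b =
      gc c (.inl q') (m.apply x.length z) (o ++ (e q m.scan).toList) := by
  have h1 : (fm G e c).δ (gc (e := e) c (.inl q) m o).q (cell x (gc (e := e) c (.inl q) m o).pos)
      (fun j => (gc (e := e) c (.inl q) m o).tape j ((gc (e := e) c (.inl q) m o).head j)) b =
      (.inl q', vm z.1, fun j =>
        (bt (z.2 ((nb T).symm j).1).1 ((nb T).symm j).2, vm (z.2 ((nb T).symm j).1).2),
        e q m.scan) := by
    change (fm G e c).δ (.inl q) (cell x m.inHead) _ b = _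
    simp only [fm]
    rw [dsc_gc, cell_eq, ys_sy, h]
  rw [Machine.step, if_neg (by simp [gc, fm])]
  simp only [h1]
  refine conf_ext rfl ?_ ?_ ?_ rfl
  · change min (m.inHead + (vm z.1 : ℤ)).toNat (x.length + 1) = _
    rw [← mv_appIn _ hm, mv_vm]
    rfl
  · funext j p
    simp only [gc, Mem.apply, update_apply]
    split_ifs <;> rfl
  · funext j
    change m.head ((nb T).symm j).1 + (vm (z.2 ((nb T).symm j).1).2 : ℤ) = _
    rw [← mv_app, mv_vm]
    rfl

theorem step_gc_none {q : G.Q} {m : Mem T} (o : List Bool) (b : Bool)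
    (hm : m.inHead ≤ x.length + 1) (h : G.step q (inAt x m.inHead) m.scan = none) :
    (fm G e c).step x (gc c (.inl q) m o) b = gc c (.inr (c m.scan)) m o := by
  have h1 : (fm G e c).δ (gc (e := e) c (.inl q) m o).q (cell x (gc (e := e) c (.inl q) m o).pos)
      (fun j => (gc (e := e) c (.inl q) m o).tape j ((gc (e := e) c (.inl q) m o).head j)) b =
      (.inr (c m.scan), 0, fun j =>
        ((gc (e := e) c (.inl q) m o).tape j ((gc (e := e) c (.inl q) m o).head j), 0), none) := by
    change (fm G e c).δ (.inl q) (cell x m.inHead) _ b = _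
    simp only [fm]
    rw [dsc_gc, cell_eq, ys_sy, h]
  rw [Machine.step, if_neg (by simp [gc, fm])]
  simp only [h1]
  refine conf_ext rfl ?_ ?_ ?_ (List.append_nil _)
  · change min (m.inHead + ((0 : SignType) : ℤ)).toNat (x.length + 1) = m.inHead
    simpa using hm
  · funext j
    exact update_eq_self _ _
  · funext j
    change m.head ((nb T).symm j).1 + ((0 : SignType) : ℤ) = m.head ((nb T).symm j).1
    simp

theorem RO.run {q q' : G.Q} {m m' : Mem T} {o : List Bool} (h : RO G e x S q m q' m' o)
    (ρ : ℕ → Bool) : ∀ t o0, (fm G e c).run x ρ t = gc c (.inl q) m o0 →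
      ∃ t', (fm G e c).run x ρ t' = gc c (.inl q') m' (o0 ++ o) ∧ t ≤ t' ∧
        ∀ s, t ≤ s → s ≤ t' → ∀ j, 0 ≤ ((fm G e c).run x ρ s).head j ∧
          ((fm G e c).run x ρ s).head j ≤ S := by
  induction h with
  | refl q m hi =>
    intro t o0 h
    refine ⟨t, by rw [h, List.append_nil], le_rfl, fun s h1 h2 j => ?_⟩
    obtain rfl : s = t := le_antisymm h2 h1
    rw [h]
    exact hi _
  | @step q q' q'' m m'' z o hi hs _ ih =>
    intro t o0 h
    have hp := pos_run (M := fm G e c) (x := x) ρ t
    rw [h] at hp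
    obtain ⟨t', h1, h2, h3⟩ := ih (t + 1) _ (by rw [Machine.run, h, step_gc o0 _ hp hs])
    refine ⟨t', by rw [h1, List.append_assoc], by omega, fun s h4 h5 j => ?_⟩
    rcases h4.eq_or_lt with rfl | h6
    · rw [h]
      exact hi _
    · exact h3 s h6 h5 j

theorem RO.ends {q : G.Q} {m : Mem T} {o : List Bool}
    (h : RO G e x S G.start ⟨0, fun _ _ => none, fun _ => 0⟩ q m o)
    (hq : G.step q (inAt x m.inHead) m.scan = none) (ρ : ℕ → Bool) :
    (fm G e c).Ends x ρ (c m.scan) o ∧ {z : Fin (fm G e c).k × ℤ |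
      ∃ t, ((fm G e c).run x ρ t).head z.1 = z.2}.encard ≤ (Nat.card (T × Bool) * (S + 1) : ℕ) := by
  obtain ⟨t, h1, -, h3⟩ := h.run (c := c) ρ 0 [] (by
    refine conf_ext rfl rfl ?_ rfl rfl
    funext j p
    change false = bt none ((nb T).symm j).2
    cases ((nb T).symm j).2 <;> rfl)
  have hp := pos_run (M := fm G e c) (x := x) ρ t
  rw [h1] at hp
  have h2 : (fm G e c).run x ρ (t + 1) = gc c (.inr (c m.scan)) m o := by
    rw [Machine.run, h1, step_gc_none _ _ hp hq, List.nil_append]
  refine ⟨⟨t + 1, by rw [h2]; rfl, by rw [h2]; rfl⟩, ?_⟩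
  have h4 : ((univ : Finset (Fin (fm G e c).k)) ×ˢ Icc (0 : ℤ) S).card =
      Nat.card (T × Bool) * (S + 1) := by
    rw [card_product, card_univ, Fintype.card_fin, Int.card_Icc]
    congr 1
  rw [← h4, ← Set.encard_coe_eq_coe_finsetCard]
  refine Set.encard_le_encard ?_
  rintro ⟨j, p⟩ ⟨s, hs0⟩
  dsimp only at hs0
  subst hs0
  refine mem_coe.2 (mem_product.2 ⟨mem_univ _, mem_Icc.2 ?_⟩)
  dsimp only
  rcases le_or_gt s t with hs | hs
  · exact h3 s (Nat.zero_le _) hs j
  · have h5 := h3 t (Nat.zero_le _) le_rfl j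
    rw [run_of_halt (t := t + 1) (by rw [h2]; rfl) hs, h2]
    rw [h1] at h5
    exact h5

end mach

/-! ### The output loop -/

/-- The input word with a counter. -/
def Ix (A : Type) : Type := List A × ℕ

instance : Enc A (Ix A) := ⟨fun p => p.2, fun x p => p.1 = x⟩

theorem sp_ix {B : Bud A} : SP B fun p : Ix A => ((p.1, p.2) : Inp A × ℕ) :=
  (SP.of_CF (f := fun p : Ix A => (p.1 : Inp A)) (CF.const 0) (fun _ _ h => h) fun _ _ _ => rfl).pair
    (SP.of_CF (f := fun p : Ix A => (p.2 : ℕ)) (CF.var 0) (fun _ _ _ => trivial) fun _ _ h => h)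

theorem exists_set {B : Bud A} {f : Inp A × ℕ → ℕ} (hf : SP B f) {i : ℕ} (hi : i < 5)
    (h3 : i ≠ 3) : ∃ (c : ℕ) (p : CProg A), ∀ (x : List A) (h : ℕ) (s : ℕ → ℕ) (b : ℕ),
      (∀ j, 5 ≤ j → s j = 0) → s 3 ≤ b → B.b x ≤ b →
      ∃ h', CEval x (pb c b) p (h, s) (h', update s i (f (x, s 3))) := by
  obtain ⟨c, hc⟩ := (hf.comp sp_ix).2
  obtain ⟨p, hp⟩ := hc (fun _ => 3) 5 fun _ => by omega
  refine ⟨c, .seq (clr i) (.seq p (mov 5 i)), fun x h s b h1 h2 h4 => ?_⟩
  have e3 : update s i 0 3 = s 3 := update_of_ne h3.symm _ _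
  obtain ⟨h', E⟩ := hp x h (update s i 0) b (f (x, s 3))
    (fun j hj => by rw [update_of_ne (by omega), h1 j hj]) (fun _ => by rw [e3]; exact h2) h4
    ⟨(x, s 3), rfl, e3, rfl⟩
  have h5 := E.le_max 5
  dsimp only at h5
  rw [update_self, update_of_ne (by omega), h1 5 le_rfl] at h5
  refine ⟨h', .seq (clr_eval i h s) (.seq E ((mov_eval (by omega) h' _ ?_).congr fun j => ?_))⟩
  · rw [update_self, update_of_ne (by omega), update_self]
    omega
  · have := h1 5 le_rfl
    simp only [update_apply]
    split_ifs <;> first | omega | (subst_vars; omega)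

/-- The output symbol with a given number. -/
def ob : ℕ → Option Bool
  | 0 => none
  | 1 => some false
  | _ + 2 => some true

/-- The number of an output symbol. -/
def bo : Option Bool → ℕ
  | none => 0
  | some false => 1
  | some true => 2

theorem ob_bo (z : Option Bool) : ob (bo z) = z := by rcases z with _ | _ | _ <;> rfl

theorem tb_ob (n : ℕ) : tb (decide (min 1 n ≠ 0)) (decide (n - 1 ≠ 0)) = ob n := by
  rcases n with _ | _ | n
  · rfl
  · rfl
  · simp [tb, ob]

theorem loop_some {c : (T → Option Bool) → Bool} {F : Frag A T} {q q' : F.Q} {a : InSym A}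
    {r : T → Option Bool} {z : Act T} (h : F.step q a r = some (q', z)) :
    (Frag.loop c F).step (some q) a r = some (some q', z) := by
  simp [Frag.loop, h]

theorem loop_none {c : (T → Option Bool) → Bool} {F : Frag A T} {q : F.Q} {a : InSym A}
    {r : T → Option Bool} (h : F.step q a r = none) :
    (Frag.loop c F).step (some q) a r = some (none, noop r) := by
  simp [Frag.loop, h]

/-- The budget given by the length of the input. -/
abbrev B0 (A : Type) : Bud A := ⟨List.length⟩

/-- Functions computed with bounded registers are computed by machines. -/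
theorem exists_FL {len : Inp A → ℕ} {w : Inp A × ℕ → ℕ} {ans : Inp A → Bool}
    (hl : SP (B0 A) len) (hw : SP (B0 A) w) (ha : SP (B0 A) ans) :
    ∃ D : Machine A, FL D ∧ ∀ x ρ,
      D.Ends x ρ (ans x) ((List.range (len x)).flatMap fun t => (ob (w (x, t))).toList) := by
  classical
  have hlt : SP (B0 A) fun p : Inp A × ℕ => decide (p.2 < len p.1) :=
    SP.snd'.decide_lt (hl.comp SP.fst')
  obtain ⟨c1, p1, h1⟩ := exists_set (SP.ite hlt ((SP.const 1).min hw) (SP.const 0)) (i := 1)
    (by omega) (by omega)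
  obtain ⟨c2, p2, h2⟩ := exists_set (hw.sub (SP.const 1)) (i := 2) (by omega) (by omega)
  obtain ⟨c4, p4, h4⟩ := exists_set (ha.comp SP.fst').toNat (i := 4) (by omega) (by omega)
  obtain ⟨c0, p0, h0⟩ := exists_set (SP.ite hlt (SP.const 0) (SP.const 1)) (i := 0)
    (by omega) (by omega)
  obtain ⟨d, hd⟩ := hl.pbd
  set p : CProg A := .seq p1 (.seq p2 (.seq p4 (.seq p0 (.inc 3)))) with hp
  set c := c1 + c2 + c4 + c0 + 1 with hc
  have body : ∀ (x : List A) (h : ℕ) (s : ℕ → ℕ), (∀ j, 5 ≤ j → s j = 0) → s 3 ≤ len x →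
      ∃ h' s', CEval x (pb c (len x + x.length)) p (h, s) (h', s') ∧ (∀ j, 5 ≤ j → s' j = 0) ∧
        s' 0 = (if s 3 < len x then 0 else 1) ∧
        s' 1 = (if s 3 < len x then min 1 (w (x, s 3)) else 0) ∧ s' 2 = w (x, s 3) - 1 ∧
        s' 3 = s 3 + 1 ∧ s' 4 = (ans x).toNat := by
    intro x h s e1 e2
    have b1 : s 3 ≤ len x + x.length := by omega
    have b2 : x.length ≤ len x + x.length := by omega
    obtain ⟨k1, E1⟩ := h1 x h s _ e1 b1 b2
    have u : ∀ (s : ℕ → ℕ) (i v : ℕ), i < 5 → i ≠ 3 → (∀ j, 5 ≤ j → s j = 0) ∧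
        s 3 ≤ len x + x.length → (∀ j, 5 ≤ j → update s i v j = 0) ∧
        update s i v 3 ≤ len x + x.length := fun s i v a1 a2 a3 =>
      ⟨fun j hj => by rw [update_of_ne (by omega), a3.1 j hj],
        by rw [update_of_ne a2.symm]; exact a3.2⟩
    have u1 := u s 1 (if s 3 < len x then min 1 (w (x, s 3)) else 0) (by omega) (by omega) ⟨e1, b1⟩
    obtain ⟨k2, E2⟩ := h2 x k1 _ _ u1.1 u1.2 b2
    rw [update_of_ne (by omega)] at E2
    have u2 := u _ 2 (w (x, s 3) - 1) (by omega) (by omega) u1
    obtain ⟨k4, E4⟩ := h4 x k2 _ _ u2.1 u2.2 b2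
    have u4 := u _ 4 (ans x).toNat (by omega) (by omega) u2
    obtain ⟨k0, E0⟩ := h0 x k4 _ _ u4.1 u4.2 b2
    rw [update_of_ne (by omega), update_of_ne (by omega), update_of_ne (by omega)] at E0
    refine ⟨k0, _, .seq (E1.mono (pb_mono (by omega) _)) (.seq (E2.mono (pb_mono (by omega) _))
      (.seq (E4.mono (pb_mono (by omega) _)) (.seq (E0.mono (pb_mono (by omega) _))
      (.inc 3 k0 _ ?_)))), fun j hj => ?_, by simp, by simp, by simp, by simp, by simp⟩
    · have : _ ≤ pb c _ := le_pb (c1 + c2 + c4 + c0) (len x + x.length)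
      simp only [ne_eq, OfNat.ofNat_ne_zero, not_false_eq_true, update_of_ne, Nat.reduceEqDiff,
        OfNat.ofNat_ne_one]
      omega
    · rw [update_of_ne (by omega), update_of_ne (by omega), update_of_ne (by omega),
        update_of_ne (by omega), update_of_ne (by omega), e1 j hj]
  set k := p.bound + 5 with hk
  set G : Frag A (Option (Fin k)) := Frag.loop (fun r => !(r (regTape k 0)).isSome) (p.frag k)
    with hG
  set e : G.Q → (Option (Fin k) → Option Bool) → Option Bool := fun q r =>
    match q with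
    | none => tb (r (regTape k 1)).isSome (r (regTape k 2)).isSome
    | some _ => none with he
  have main : ∀ x : List A, ∃ m, RO G e x (Nat.log 2 (pb c (len x + x.length)) + 1) none
      ⟨0, fun _ _ => none, fun _ => 0⟩ none m
      ((List.range (len x)).flatMap fun t => (ob (w (x, t))).toList) ∧
      G.step none (inAt x m.inHead) m.scan = none ∧ (m.scan (regTape k 4)).isSome = ans x := by
    intro x
    set S := Nat.log 2 (pb c (len x + x.length)) + 1 with hS
    have one : ∀ h s St, RegRep k s St → Bd S St → (∀ j, 5 ≤ j → s j = 0) → s 3 ≤ len x →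
        s 0 = 0 → ∃ h' s' St', RegRep k s' St' ∧ Bd S St' ∧
          RO G e x S none (memOf h St) none (memOf h' St') (e none (memOf h St).scan).toList ∧
          (∀ j, 5 ≤ j → s' j = 0) ∧ s' 0 = (if s 3 < len x then 0 else 1) ∧
          s' 1 = (if s 3 < len x then min 1 (w (x, s 3)) else 0) ∧ s' 2 = w (x, s 3) - 1 ∧
          s' 3 = s 3 + 1 ∧ s' 4 = (ans x).toNat := by
      intro h s St r1 r2 e1 e2 e3
      obtain ⟨h', s', E, e4⟩ := body x h s e1 e2
      obtain ⟨St', r3, q, r4, r5⟩ := E.run (S := S) (k := k) le_rfl (by omega) r1 r2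
      refine ⟨h', s', St', r3, in_memOf.1 r4.in_right, ?_, e4⟩
      have a1 : RO G e x S none (memOf h St) (some (p.frag k).start) (memOf h St) _ :=
        RO.jump r4.in_left (by
          change (bif !((memOf h St).scan (regTape k 0)).isSome then _ else _) = _
          rw [r1.scan (by omega), e3]
          rfl)
      have a2 : RO G e x S (some (p.frag k).start) (memOf h St) (some q) (memOf h' St') [] :=
        RO.lift (G := G) some (fun q a r q' z e => loop_some e) (fun _ _ => rfl) r4
      have a3 : RO G e x S (some q) (memOf h' St') none (memOf h' St') _ :=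
        RO.jump r4.in_right (loop_none r5)
      simpa [he] using (a1.trans a2).trans a3
    have key : ∀ t ≤ len x, ∃ h s St o, RegRep k s St ∧ Bd S St ∧
        RO G e x S none ⟨0, fun _ _ => none, fun _ => 0⟩ none (memOf h St) o ∧
        (∀ j, 5 ≤ j → s j = 0) ∧ s 0 = 0 ∧ s 3 = t ∧ o ++ (e none (memOf h St).scan).toList =
          (List.range t).flatMap fun t => (ob (w (x, t))).toList := by
      intro t
      induction t with
      | zero =>
        intro _
        exact ⟨0, fun _ => 0, fun _ => [], [], ⟨rfl, fun _ => rfl⟩, fun _ => Nat.zero_le _,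
          .refl _ _ ((in_memOf (h := 0) (St := fun _ => [])).2 fun _ => Nat.zero_le _),
          fun _ _ => rfl, rfl, rfl, rfl⟩
      | succ t ih =>
        intro ht
        obtain ⟨h, s, St, o, r1, r2, r3, e1, e2, e3, e4⟩ := ih (by omega)
        obtain ⟨h', s', St', r4, r5, r6, e5, e6, e7, e8, e9, -⟩ :=
          one h s St r1 r2 e1 (by omega) e2
        rw [e3, if_pos (by omega)] at e6 e7
        refine ⟨h', s', St', _, r4, r5, r3.trans r6, e5, e6, by omega, ?_⟩
        rw [e4, List.range_succ, List.flatMap_append]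
        simp only [he]
        rw [r4.scan (by omega), r4.scan (by omega), e7, e8, e3, tb_ob]
        simp
    obtain ⟨h, s, St, o, r1, r2, r3, e1, e2, e3, e4⟩ := key _ le_rfl
    obtain ⟨h', s', St', r4, r5, r6, e5, e6, e7, e8, e9, e10⟩ := one h s St r1 r2 e1 (by omega) e2
    rw [e3, if_neg (by omega)] at e6
    refine ⟨memOf h' St', e4 ▸ r3.trans r6, ?_, ?_⟩
    · change (bif !((memOf h' St').scan (regTape k 0)).isSome then _ else _) = _
      rw [r4.scan (by omega), e6]
      rfl
    · rw [r4.scan (by omega), e10]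
      cases ans x <;> rfl
  set D := fm G e fun r => (r (regTape k 4)).isSome with hD
  have hdet : D.Det := fun _ _ _ => rfl
  have hend : ∀ x ρ,
      D.Ends x ρ (ans x) ((List.range (len x)).flatMap fun t => (ob (w (x, t))).toList) := by
    intro x ρ
    obtain ⟨m, r1, r2, r3⟩ := main x
    exact r3 ▸ (r1.ends r2 ρ).1
  have hsp : D.LogSpace := by
    refine ⟨fun n => Nat.card (Option (Fin k) × Bool) * (2 * ((d + 2 + 2) * c) + 2) *
      Nat.log 2 (n + 2), log_isBigO _, fun x ρ => ?_⟩
    obtain ⟨m, r1, r2, -⟩ := main x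
    refine (r1.ends r2 ρ).2.trans (Nat.cast_le.2 ?_)
    dsimp only
    rw [mul_assoc]
    refine Nat.mul_le_mul_left _ ?_
    have a1 : len x ≤ pb d x.length := by simpa [enc_inp, pb] using hd x x rfl
    have a2 := le_pb 0 x.length
    have a3 : _ ≤ pb (d + 2) _ := pb_add d 1 x.length
    have a4 : pb c (len x + x.length) ≤ pb ((d + 2 + 2) * c) x.length :=
      (pb_mono_right c (by simp only [zero_add] at a2; omega)).trans (pb_pb (d + 2) c _)
    have a5 := Nat.log_mono_right (b := 2) a4
    have a6 := log_pb_le ((d + 2 + 2) * c) x.length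
    have a7 : 1 ≤ Nat.log 2 (x.length + 2) := Nat.le_log_of_pow_le (by omega) (by omega)
    nlinarith
  exact ⟨D, ⟨hdet, hsp, polyTime_of_det hdet hsp fun x => ⟨fun _ => false, _, _, hend x _⟩⟩, hend⟩

end Vale.Agent.N313M
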