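import Mathlib.Computability.Language
import Mathlib.Probability.ProductMeasure
import Mathlib.Probability.UniformOn
import Mathlib.Analysis.SpecialFunctions.Log.Basic
import Mathlib.Data.Nat.Bits

/-!
Machines with a read-only input tape, binary work tapes, a write-only output tape and one fresh
fair bit for each step. The classes L, RL, BPL. Codes of numbers and of rational matrices.
-/

namespace Vale.Agent.N313M

open MeasureTheory Filter Asymptotics

/-- The input tape for the word `x`: left endmarker in the cell `0`, then the letters, then the
right endmarker. -/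
def cell {A : Type} (x : List A) (p : ℕ) : A ⊕ Bool := (.inr false :: x.map .inl).getD p (.inr true)

/-- A machine with `k` binary work tapes. `answer q = some d` says that `q` is a halting state
with the answer `d`. The transition gets the state, the scanned input symbol, the scanned bits and
a random bit; it gives the new state, the move on the input, the new bits with the moves on the
work tapes, and possibly a bit for the output tape. -/
structure Machine (A : Type) where
  Q : Type
  fin : Finite Q
  k : ℕ
  start : Q
  answer : Q → Option Bool
  δ : Q → A ⊕ Bool → (Fin k → Bool) → Bool →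
    Q × SignType × (Fin k → Bool × SignType) × Option Bool

namespace Machine

variable {A : Type} (M : Machine A)

/-- Configurations. -/
structure Conf where
  q : M.Q
  pos : ℕ
  tape : Fin M.k → ℤ → Bool
  head : Fin M.k → ℤ
  out : List Bool

/-- One step on the input `x` with the random bit `b`. -/
def step (x : List A) (c : M.Conf) (b : Bool) : M.Conf :=
  if (M.answer c.q).isSome then c else
    let a := M.δ c.q (cell x c.pos) (fun i => c.tape i (c.head i)) b
    ⟨a.1, min (c.pos + (a.2.1 : ℤ)).toNat (x.length + 1),
      fun i => Function.update (c.tape i) (c.head i) (a.2.2.1 i).1,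
      fun i => c.head i + (a.2.2.1 i).2, c.out ++ a.2.2.2.toList⟩

/-- The configuration after `t` steps, the step number `t` gets the bit `ρ t`. -/
def run (x : List A) (ρ : ℕ → Bool) : ℕ → M.Conf
  | 0 => ⟨M.start, 0, fun _ _ => false, fun _ => 0, []⟩
  | t + 1 => M.step x (run x ρ t) (ρ t)

/-- The machine halts with the answer `d` and the output `y`. -/
def Ends (x : List A) (ρ : ℕ → Bool) (d : Bool) (y : List Bool) : Prop :=
  ∃ t, M.answer (M.run x ρ t).q = some d ∧ (M.run x ρ t).out = y

/-- The machine always halts, with the answer `true` exactly for the words of the language. -/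
def Decides (S : Language A) : Prop := ∀ x ρ, ∃ d y, M.Ends x ρ d y ∧ (d = true ↔ x ∈ S)

/-- The machine ignores the random bits. -/
def Det : Prop := ∀ s a r, M.δ s a r true = M.δ s a r false

/-- `O(log n)` bits of the work tapes are visited, for all random bits. -/
def LogSpace : Prop := ∃ s : ℕ → ℕ, (fun n => (s n : ℝ)) =O[atTop] (fun n : ℕ => Real.log n) ∧
  ∀ x ρ, {z : Fin M.k × ℤ | ∃ t, (M.run x ρ t).head z.1 = z.2}.encard ≤ s x.length

/-- The machine halts after polynomially many steps, for all random bits. -/
def PolyTime : Prop :=
  ∃ p : Polynomial ℕ, ∀ x ρ, (M.answer (M.run x ρ (p.eval x.length)).q).isSome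

end Machine

/-- The probability for independent fair bits. -/
noncomputable def prob (E : (ℕ → Bool) → Prop) : ℝ :=
  (Measure.infinitePi fun _ : ℕ => ProbabilityTheory.uniformOn (Set.univ : Set Bool)).real {ρ | E ρ}

/-- The class L. -/
def L (A : Type) : Set (Language A) := {S | ∃ M : Machine A, M.Det ∧ M.LogSpace ∧ M.Decides S}

/-- Acceptance probability at most `a` outside of the language and at least `b` in it. -/
def Rand (A : Type) (a b : ℝ) : Set (Language A) :=
  {S | ∃ M : Machine A, M.LogSpace ∧ M.PolyTime ∧ ∀ x,
    (x ∉ S → prob (fun ρ => ∃ y, M.Ends x ρ true y) ≤ a) ∧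
    (x ∈ S → b ≤ prob fun ρ => ∃ y, M.Ends x ρ true y)}

/-- Deterministic, logarithmic space, polynomial time. -/
def FL {A : Type} (D : Machine A) : Prop := D.Det ∧ D.LogSpace ∧ D.PolyTime

/-- The code of an integer: sign, then binary digits. -/
def zc (z : ℤ) : List Bool := decide (z < 0) :: z.natAbs.bits

/-- The input word: `n, i, j, T, m` in unary, then numerator and denominator of each entry of the
matrix in binary; each field is closed by the letter `none`. -/
def code {n : ℕ} (P : Matrix (Fin n) (Fin n) ℚ) (i j : Fin n) (T m : ℕ) : List (Option Bool) :=
  (([n, i, j, T, m].map fun a => List.replicate a true) ++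
    (List.finRange n).flatMap fun u => (List.finRange n).flatMap fun v =>
      [zc (P u v).num, (P u v).den.bits]).flatMap fun w => w.map some ++ [none]

/-- On the input `x` the machine outputs an integer within `1` of `r`. -/
def Approx {A : Type} (D : Machine A) (x : List A) (r : ℚ) : Prop :=
  ∃ z : ℤ, (∀ ρ, D.Ends x ρ true (zc z)) ∧ |z - r| ≤ 1

end Vale.Agent.N313M
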