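import Vale.Agent.N313M.Pow

/-! Reading of the input, writing of the output. Powers and inverses of rational matrices. -/

namespace Vale.Agent.N313M

open Finset Function Vale.Agent.Lib.Space Vale.Agent.P313 Vale.Agent.N313
open Vale.Agent.P313.Full (ZSP RSP)

/-! ### Output -/

theorem exists_apx {A : Type} [Finite A] {C : Inp A → Prop} {r : Inp A → ℝ} (h : AP (B0 A) C r) :
    ∃ D : Machine A, FL D ∧ ∀ x, C x → ∀ q : ℚ, |(q : ℝ) - r x| ≤ 1 / 4 → Approx D x q := by
  obtain ⟨z, h1, h2⟩ := h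
  set y : Inp A → ℤ := fun x => (z (x, 4) + 2) / (4 : ℕ) with hy
  have h3 : ZSP (B0 A) y :=
    ((h1.comp (SP.id.pair (SP.const 4))).add (Full.ZSP.const 2)).div (SP.const 4)
  have h4 : SP (B0 A) fun p : Inp A × ℕ => (y p.1).natAbs := h3.natAbs.comp SP.fst'
  have h5 : SP (B0 A) fun p : Inp A × ℕ => bo (zc (y p.1))[p.2]? := by
    refine (SP.ite (SP.snd'.decide_eq (SP.const 0))
      ((SP.const 1).add ((h3.decide_lt (Full.ZSP.const 0)).comp SP.fst').toNat)
      (SP.ite ((SP.snd'.sub (SP.const 1)).decide_lt (Full.sp_size h4)) ((SP.const 1).add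
        ((h4.div_pow (SP.const 2) (SP.snd'.sub (SP.const 1))).mod (SP.const 2)))
        (SP.const 0))).congr fun p => ?_
    have e : ∀ b : Bool, bo (some b) = 1 + b.toNat := fun b => by cases b <;> rfl
    obtain ⟨x, t⟩ := p
    cases t with
    | zero => simp [zc, e]
    | succ t =>
      rw [if_neg (by simp), zc]
      simp only [Nat.add_sub_cancel, List.getElem?_cons_succ]
      rw [← Nat.size_eq_bits_len]
      split_ifs with h
      · rw [List.getElem?_eq_getElem h, e, ← Nat.toNat_testBit, Nat.testBit_eq_inth,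
          List.getI_eq_getElem _ h]
      · rw [List.getElem?_eq_none (not_lt.1 h)]
        rfl
  obtain ⟨D, hD, hE⟩ := exists_FL (ans := fun _ => true)
    ((Full.sp_size h3.natAbs).add (SP.const 1)) h5 (SP.const true)
  refine ⟨D, hD, fun x hx q hq => ⟨y x, fun ρ => ?_, ?_⟩⟩
  · have := hE x ρ
    simp only [ob_bo] at this
    rwa [flatMap_getElem? _ (by simp [zc, Nat.size_eq_bits_len])] at this
  · have a1 := abs_le.1 (h2 x x 4 rfl hx)
    have a2 := abs_le.1 hq
    have a3 : 4 * y x ≤ z (x, 4) + 2 ∧ z (x, 4) - 2 ≤ 4 * y x := by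
      simp only [hy]
      omega
    have a4 : (4 * y x : ℝ) ≤ z (x, 4) + 2 := by exact_mod_cast a3.1
    have a5 : (z (x, 4) - 2 : ℝ) ≤ 4 * y x := by exact_mod_cast a3.2
    have a6 : |(y x : ℝ) - q| ≤ 1 := by
      push_cast at a1
      rw [abs_le]
      constructor <;> linarith
    exact_mod_cast a6

/-! ### Fields of the input -/

/-- The word with the given fields. -/
def flat (ws : List (List Bool)) : List (Option Bool) := ws.flatMap fun w => w.map some ++ [none]

/-- Test for the separator. -/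
def isn : InSym (Option Bool) → Bool
  | .letter none => true
  | _ => false

/-- Test for the bit one. -/
def ist : InSym (Option Bool) → Bool
  | .letter (some true) => true
  | _ => false

variable (x : List (Option Bool))

/-- The number of separators in an initial segment. -/
def cnt (p : ℕ) : ℕ := ∑ q ∈ range p, (isn (inAt x (q + 1))).toNat

/-- The start of a field. -/
def st (f : ℕ) : ℕ := ∑ p ∈ range (x.length + 1), if cnt x p < f then 1 else 0

/-- The length of a field. -/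
def fl (f : ℕ) : ℕ := st x (f + 1) - st x f - 1

/-- A bit of a field. -/
def fb (f q : ℕ) : Bool := decide (q < fl x f) && ist (inAt x (st x f + q + 1))

/-- The value of a part of a field. -/
def vl (f o c : ℕ) : ℕ := ∑ q ∈ range c, (fb x f (o + q)).toNat * 2 ^ q

/-- The rational number in two fields. -/
noncomputable def ent (f : ℕ) : ℝ :=
  (if fb x f 0 = true then -1 else 1) * vl x f 1 (fl x f) / vl x (f + 1) 0 (fl x (f + 1))

theorem cnt_eq (p : ℕ) : cnt x p = (x.take p).count none := by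
  induction p with
  | zero => rfl
  | succ p ih =>
    rw [cnt, sum_range_succ, ← cnt, ih, List.take_add_one, List.count_append, inAt]
    rcases x[p]? with _ | _ | _ <;> simp [isn]

variable {x}

theorem flat_cons (w : List Bool) (ws : List (List Bool)) :
    flat (w :: ws) = w.map some ++ none :: flat ws := by simp [flat]

theorem flat_append (a b : List (List Bool)) : flat (a ++ b) = flat a ++ flat b := by simp [flat]

theorem count_map (w : List Bool) : (w.map some).count none = 0 := by simp [List.count_eq_zero]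

theorem count_flat (ws : List (List Bool)) : (flat ws).count none = ws.length := by
  induction ws with
  | nil => rfl
  | cons w ws ih => rw [flat_cons, List.count_append, count_map, List.count_cons_self, ih]; simp

theorem count_take (ws : List (List Bool)) :
    ∀ p < (flat ws).length, ((flat ws).take p).count none < ws.length := by
  induction ws with
  | nil => intro p hp; simp [flat] at hp
  | cons w ws ih =>
    intro p hp
    rw [flat_cons] at hp ⊢
    rw [List.take_append, List.count_append, ← List.map_take, count_map]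
    simp only [List.length_append, List.length_map, List.length_cons] at hp ⊢
    rcases e : p - w.length with _ | d
    · simp
    · rw [List.take_succ_cons, List.count_cons_self]
      have := ih d (by omega)
      omega

theorem st_flat (a b : List (List Bool)) : st (flat (a ++ b)) a.length = (flat a).length := by
  rw [st, flat_append, List.length_append, add_assoc, sum_range_add, sum_eq_zero (s := range _)
    (f := fun p => if cnt _ (_ + p) < _ then 1 else 0) fun p _ => if_neg ?_,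
    sum_congr rfl (g := fun _ => 1) fun p hp => if_pos ?_]
  · simp
  · rw [cnt_eq, List.take_append_of_le_length (mem_range.1 hp).le]
    exact count_take a p (mem_range.1 hp)
  · rw [cnt_eq, List.take_append, List.take_of_length_le (by omega), List.count_append, count_flat]
    omega

theorem fld_flat {ws : List (List Bool)} {f : ℕ} {w : List Bool} (h : ws[f]? = some w) :
    fl (flat ws) f = w.length ∧ ∀ q, fb (flat ws) f q = w.getI q := by
  obtain ⟨hf, rfl⟩ := List.getElem?_eq_some_iff.1 h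
  have e1 : ws = ws.take f ++ ws[f] :: ws.drop (f + 1) := by simp
  have e2 : (ws.take f).length = f := by simp [hf.le]
  generalize ws.take f = a, ws[f] = w, ws.drop (f + 1) = b at e1 e2
  subst e1 e2
  have h1 := st_flat a (w :: b)
  have h2 := st_flat (a ++ [w]) b
  rw [List.append_assoc, List.singleton_append, List.length_append, List.length_singleton,
    flat_append a [w], flat_cons] at h2
  have h3 : fl (flat (a ++ w :: b)) a.length = w.length := by
    rw [fl, h1, h2]
    simp [flat]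
  refine ⟨h3, fun q => ?_⟩
  rw [fb, h3, h1, inAt, flat_append, List.getElem?_append_right (by omega), flat_cons,
    Nat.add_sub_cancel_left]
  rcases lt_or_ge q w.length with e | e
  · rw [List.getElem?_append_left (by simpa using e), List.getElem?_map,
      List.getElem?_eq_getElem e, List.getI_eq_getElem _ e, decide_eq_true e]
    cases w[q] <;> rfl
  · rw [decide_eq_false (by omega), List.getI_eq_default _ e]
    rfl

theorem vl_eq {f o m : ℕ} (h : ∀ q, fb x f (o + q) = m.testBit q) (e c : ℕ) :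
    vl x f (o + e) c = m / 2 ^ e % 2 ^ c := by
  induction c with
  | zero => simp [vl, Nat.mod_one]
  | succ c ih =>
    rw [vl, sum_range_succ, ← vl, ih, Nat.mod_pow_succ, add_assoc, h, Nat.toNat_testBit, pow_add,
      Nat.div_div_eq_div_mul, mul_comm]

/-- The fields `f, f + 1` contain the code of `q`. -/
def Has (x : List (Option Bool)) (f : ℕ) (q : ℚ) : Prop :=
  ∃ ws, x = flat ws ∧ ws[f]? = some (zc q.num) ∧ ws[f + 1]? = some q.den.bits

theorem Has.spec {f : ℕ} {q : ℚ} (h : Has x f q) : fb x f 0 = decide (q.num < 0) ∧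
    fl x f = q.num.natAbs.size + 1 ∧ fl x (f + 1) = q.den.size ∧
    (∀ e c, vl x f (1 + e) c = q.num.natAbs / 2 ^ e % 2 ^ c) ∧
    ∀ e c, vl x (f + 1) e c = q.den / 2 ^ e % 2 ^ c := by
  obtain ⟨ws, rfl, h1, h2⟩ := h
  obtain ⟨h3, h4⟩ := fld_flat h1
  obtain ⟨h5, h6⟩ := fld_flat h2
  refine ⟨h4 0, by rw [h3, zc, List.length_cons, Nat.size_eq_bits_len],
    by rw [h5, Nat.size_eq_bits_len], vl_eq fun t => ?_, fun e c => ?_⟩
  · rw [h4, Nat.testBit_eq_inth, add_comm]
    rfl
  · have := vl_eq (o := 0) (m := q.den) (fun t => by rw [h6, Nat.testBit_eq_inth, zero_add]) e c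
    rwa [zero_add] at this

theorem sign_natAbs (z : ℤ) : (if decide (z < 0) = true then -1 else 1) * (z.natAbs : ℝ) = z := by
  rw [Nat.cast_natAbs, Int.cast_abs]
  split_ifs with h
  · have : (z : ℝ) < 0 := by exact_mod_cast of_decide_eq_true h
    rw [abs_of_neg this]
    ring
  · have : (0 : ℝ) ≤ z := by exact_mod_cast not_lt.1 (by simpa using h)
    rw [abs_of_nonneg this, one_mul]

theorem Has.ent {f : ℕ} {q : ℚ} (h : Has x f q) : ent x f = q := by
  obtain ⟨h1, h2, h3, h4, h5⟩ := h.spec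
  have h6 := h4 0 (fl x f)
  rw [add_zero] at h6
  rw [N313M.ent, h1, h6, h5, h2, h3, pow_zero, Nat.div_one, Nat.div_one,
    Nat.mod_eq_of_lt (Nat.lt_size_self _), Nat.mod_eq_of_lt ((Nat.lt_size_self _).trans_le
      (Nat.pow_le_pow_right (by omega) (by omega))), sign_natAbs, Rat.cast_def]

theorem trunc_apx {a d : ℕ} (h : a ≤ d) (hd : 0 < d) (E : ℕ) :
    |((a / E : ℕ) : ℝ) - (d / E : ℕ) * (a / d)| ≤ 1 := by
  rcases Nat.eq_zero_or_pos E with rfl | hE
  · simp
  have h0 : (0 : ℝ) < d := by exact_mod_cast hd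
  have h1 : (E * (a / E : ℕ) + (a % E : ℕ) : ℝ) = a := by exact_mod_cast Nat.div_add_mod a E
  have h2 : (E * (d / E : ℕ) + (d % E : ℕ) : ℝ) = d := by exact_mod_cast Nat.div_add_mod d E
  have h3 : ((a % E : ℕ) : ℝ) ≤ E := by exact_mod_cast (Nat.mod_lt a hE).le
  have h4 : ((d % E : ℕ) : ℝ) ≤ E := by exact_mod_cast (Nat.mod_lt d hE).le
  have h5 : (a : ℝ) ≤ d := by exact_mod_cast h
  have h6 : (0 : ℝ) ≤ (a / E : ℕ) := Nat.cast_nonneg _
  have h7 : (0 : ℝ) ≤ (d / E : ℕ) := Nat.cast_nonneg _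
  have h8 : (0 : ℝ) ≤ (a % E : ℕ) := Nat.cast_nonneg _
  have h9 : (0 : ℝ) ≤ (d % E : ℕ) := Nat.cast_nonneg _
  generalize ((a / E : ℕ) : ℝ) = u, ((d / E : ℕ) : ℝ) = v, ((a % E : ℕ) : ℝ) = s,
    ((d % E : ℕ) : ℝ) = t at *
  rw [show u - v * (a / d) = (u * d - v * a) / d by field_simp, abs_div, abs_of_pos h0,
    div_le_one h0, show u * d - v * a = u * t - v * s by rw [← h1, ← h2]; ring, abs_le]
  have := mul_le_mul_of_nonneg_left h4 h6
  have := mul_le_mul_of_nonneg_left h3 h7
  have := mul_nonneg h6 h9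
  have := mul_nonneg h7 h8
  constructor <;> linarith

/-! ### Small space -/

/-- The budget. -/
abbrev BO : Bud (Option Bool) := B0 (Option Bool)

section sp

variable {α : Type} [Enc (Option Bool) α] {X : α → Inp (Option Bool)} {f o c : α → ℕ}

theorem sp_st (hX : SP BO X) (hf : SP BO f) : SP BO fun a => st (X a) (f a) :=
  SP.sum_range ((sp_n.comp hX).add (SP.const 1)) (SP.ite (SP.decide_lt (SP.sum_range SP.snd'
    (SP.inTest isn (hX.comp SP.fst'.fst) (SP.snd'.add (SP.const 1))).toNat) (hf.comp SP.fst'))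
    (SP.const 1) (SP.const 0))

theorem sp_fl (hX : SP BO X) (hf : SP BO f) : SP BO fun a => fl (X a) (f a) :=
  ((sp_st hX (hf.add (SP.const 1))).sub (sp_st hX hf)).sub (SP.const 1)

theorem sp_fb (hX : SP BO X) (hf : SP BO f) (ho : SP BO o) :
    SP BO fun a => fb (X a) (f a) (o a) :=
  (ho.decide_lt (sp_fl hX hf)).and (SP.inTest ist hX (((sp_st hX hf).add ho).add (SP.const 1)))

theorem sp_vl (hX : SP BO X) (hf : SP BO f) (ho : SP BO o) (hc : SP BO c)
    (hc' : SP BO fun a => 2 ^ c a) : SP BO fun a => vl (X a) (f a) (o a) (c a) :=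
  (SP.sum_range (f := fun a q => (fb (X a) (f a) (o a + q)).toNat * min (2 ^ c a) (2 ^ q)) hc
    ((sp_fb (hX.comp SP.fst') (hf.comp SP.fst') ((ho.comp SP.fst').add SP.snd')).toNat.mul
      (SP.min_pow (hc'.comp SP.fst') (SP.const 2) SP.snd'))).congr fun a =>
    sum_congr rfl fun q hq => by
      rw [min_eq_right (Nat.pow_le_pow_right (by omega) (mem_range.1 hq).le)]

end sp

theorem ap_ent : AP BO (fun p : Inp (Option Bool) × ℕ => ∃ q : ℚ, |q| ≤ 1 ∧ Has p.1 p.2 q)
    fun p => ent p.1 p.2 := by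
  have hX : SP BO fun p : (Inp (Option Bool) × ℕ) × ℕ => p.1.1 := SP.fst'.fst
  have hf : SP BO fun p : (Inp (Option Bool) × ℕ) × ℕ => p.1.2 := SP.fst'.snd
  have hK : SP BO fun p : (Inp (Option Bool) × ℕ) × ℕ => 2 * p.2 := (SP.const 2).mul SP.snd'
  have hc := (Full.sp_size hK).add (SP.const 1)
  have hc' : SP BO fun p : (Inp (Option Bool) × ℕ) × ℕ => 2 ^ (Nat.size (2 * p.2) + 1) :=
    ((Full.sp_two_pow_size hK).mul (SP.const 2)).congr fun p => (pow_succ _ _).symm
  have he := (sp_fl hX (hf.add (SP.const 1))).sub hc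
  refine AP.of_apx ((Full.ZSP.ite (sp_fb hX hf (SP.const 0)).decide_true (Full.ZSP.const (-1))
    (Full.ZSP.const 1)).mul (Full.ZSP.natCast (sp_vl hX hf ((SP.const 1).add he) hc hc')))
    (sp_vl hX (hf.add (SP.const 1)) he hc hc') ?_
  rintro - ⟨x, f⟩ K - ⟨q, hq, h⟩
  obtain ⟨h1, h2, h3, h4, h5⟩ := h.spec
  dsimp only at h1 h2 h3 h4 h5 h ⊢
  rw [h.ent, h1, h4, h5, h3]
  have a1 : q.num.natAbs ≤ q.den := by
    have b1 : (0 : ℚ) < q.den := by exact_mod_cast q.den_pos
    rw [← q.num_div_den, abs_div, Nat.abs_cast, div_le_one b1, ← Int.cast_abs,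
      ← Nat.cast_natAbs] at hq
    exact_mod_cast hq
  set c := Nat.size (2 * K) + 1 with hc
  set e := q.den.size - c with he
  have a2 : q.den / 2 ^ e < 2 ^ c := by
    rw [Nat.div_lt_iff_lt_mul (by positivity), ← pow_add]
    exact (Nat.lt_size_self _).trans_le (Nat.pow_le_pow_right (by omega) (by omega))
  have a3 : q.num.natAbs / 2 ^ e < 2 ^ c := (Nat.div_le_div_right a1).trans_lt a2
  rw [Nat.mod_eq_of_lt a2, Nat.mod_eq_of_lt a3]
  have a4 : ((((if decide (q.num < 0) = true then -1 else 1) * (q.num.natAbs / 2 ^ e : ℕ) : ℤ) : ℝ) -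
      (q.den / 2 ^ e : ℕ) * (q : ℝ)) = (if decide (q.num < 0) = true then -1 else 1) *
      (((q.num.natAbs / 2 ^ e : ℕ) : ℝ) - (q.den / 2 ^ e : ℕ) * (q.num.natAbs / q.den)) := by
    rw [Rat.cast_def, ← sign_natAbs q.num, Int.cast_mul, Int.cast_natCast]
    split_ifs
    · simp
      ring
    · simp
  have a5 : |(if decide (q.num < 0) = true then -1 else 1 : ℝ)| = 1 := by split_ifs <;> simp
  rw [a4, abs_mul, a5, one_mul]
  rcases Nat.eq_zero_or_pos e with e0 | e0
  · have b1 : (q.den : ℝ) ≠ 0 := by exact_mod_cast q.den_ne_zero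
    rw [e0, pow_zero, Nat.div_one, Nat.div_one, mul_div_cancel₀ _ b1]
    exact ⟨q.den_pos, by simp⟩
  · have b1 : 2 ^ Nat.size (2 * K) ≤ q.den / 2 ^ e := by
      rw [Nat.le_div_iff_mul_le (by positivity), ← pow_add]
      exact Nat.lt_size.1 (by omega)
    have b2 : (2 * K : ℝ) ≤ (q.den / 2 ^ e : ℕ) := by
      exact_mod_cast (Nat.lt_size_self _).le.trans b1
    exact ⟨(Nat.two_pow_pos _).trans_le b1,
      (mul_le_of_le_one_right (by positivity) (trunc_apx a1 q.den_pos _)).trans b2⟩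

/-! ### Matrices -/

theorem getElem?_flatMap {β γ : Type} (g : β → List γ) {m r : ℕ} (hg : ∀ a, (g a).length = m)
    (hr : r < m) (l : List β) : ∀ i, (l.flatMap g)[i * m + r]? = l[i]?.bind fun a => (g a)[r]? := by
  induction l with
  | nil => intro i; simp
  | cons a l ih =>
    intro i
    rw [List.flatMap_cons]
    cases i with
    | zero => rw [zero_mul, zero_add, List.getElem?_append_left (by rw [hg]; exact hr)]; rfl
    | succ i =>
      rw [List.getElem?_append_right (by rw [hg, add_mul]; omega), hg,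
        show (i + 1) * m + r - m = i * m + r by rw [add_mul]; omega, ih]
      rfl

variable {n : ℕ} (P : Matrix (Fin n) (Fin n) ℚ) (i j : Fin n) (T k : ℕ)

theorem code_fl : fl (code P i j T k) 0 = n ∧ fl (code P i j T k) 1 = i ∧
    fl (code P i j T k) 2 = j ∧ fl (code P i j T k) 3 = T ∧ fl (code P i j T k) 4 = k :=
  ⟨(fld_flat rfl).1.trans List.length_replicate, (fld_flat rfl).1.trans List.length_replicate,
    (fld_flat rfl).1.trans List.length_replicate, (fld_flat rfl).1.trans List.length_replicate,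
    (fld_flat rfl).1.trans List.length_replicate⟩

theorem code_has (u v : Fin n) : Has (code P i j T k) (u * (n * 2) + v * 2 + 5) (P u v) := by
  have key : ∀ r < 2, ((List.finRange n).flatMap fun u => (List.finRange n).flatMap fun v =>
      [zc (P u v).num, (P u v).den.bits])[u * (n * 2) + (v * 2 + r)]? =
      [zc (P u v).num, (P u v).den.bits][r]? := by
    intro r hr
    rw [getElem?_flatMap (m := n * 2) _ (fun a => by simp [List.length_flatMap]) (by omega)]
    simp only [List.getElem?_eq_getElem (show u.1 < (List.finRange n).length by simp),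
      List.getElem_finRange, Option.bind_some]
    rw [getElem?_flatMap (m := 2) _ (fun _ => rfl) hr]
    simp
  exact ⟨_, rfl, key 0 (by omega), key 1 (by omega)⟩

/-- The entry of the power of the matrix in the input. -/
noncomputable def pe (x : List (Option Bool)) (t : ℕ) : ℝ :=
  pw (fl x 0) (fun u v => ent x (u * (fl x 0 * 2) + v * 2 + 5)) (fl x 2) t (fl x 1)

theorem pe_code (t : ℕ) : pe (code P i j T k) t = (P ^ t) i j := by
  obtain ⟨h0, h1, h2, -⟩ := code_fl P i j T k
  rw [pe, h0, h1, h2]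
  exact pw_eq (fun u v => (code_has P i j T k u v).ent) j t i

/-- The promise on the input. -/
def Pr (x : List (Option Bool)) : Prop := ∃ (n : ℕ) (P : Matrix (Fin n) (Fin n) ℚ) (i j : Fin n)
  (T k : ℕ), x = code P i j T k ∧ ∀ u, ∑ v, |P u v| ≤ 1

theorem ap_pe : AP BO (fun p : Inp (Option Bool) × ℕ => Pr p.1) fun p => pe p.1 p.2 := by
  have hn : SP BO fun p : Inp (Option Bool) × ℕ => fl p.1 0 := sp_fl SP.fst' (SP.const 0)
  have h1 : SP BO fun p : Inp (Option Bool) × ℕ => fl p.1 1 := sp_fl SP.fst' (SP.const 1)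
  have h2 : SP BO fun p : Inp (Option Bool) × ℕ => fl p.1 2 := sp_fl SP.fst' (SP.const 2)
  have h3 : SP BO fun q : (Inp (Option Bool) × ℕ) × ℕ × ℕ =>
      (q.1.1, q.2.1 * (fl q.1.1 0 * 2) + q.2.2 * 2 + 5) :=
    SP.fst'.fst.pair (((SP.snd'.fst.mul ((hn.comp SP.fst').mul (SP.const 2))).add
      (SP.snd'.snd.mul (SP.const 2))).add (SP.const 5))
  have h4 := ap_ent.comp (C' := fun q => Pr q.1.1 ∧ q.2.1 < fl q.1.1 0 ∧ q.2.2 < fl q.1.1 0) h3 ?_
  · refine AP.pow (C := fun p : Inp (Option Bool) × ℕ => Pr p.1)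
      (a := fun p u v => ent p.1 (u * (fl p.1 0 * 2) + v * 2 + 5)) hn SP.snd' h1 h2 h4 ?_
    rintro ⟨x, t⟩ ⟨n, P, i, j, T, k, rfl, h⟩
    obtain ⟨h0, h1, h2, -⟩ := code_fl P i j T k
    dsimp only
    rw [h0, h1, h2]
    refine ⟨i.2, j.2, fun u hu => ?_⟩
    rw [sum_range, sum_congr rfl fun v _ => by rw [(code_has P i j T k ⟨u, hu⟩ v).ent]]
    exact_mod_cast h ⟨u, hu⟩
  · rintro ⟨⟨x, t⟩, u, v⟩ ⟨⟨n, P, i, j, T, k, rfl, h⟩, hu, hv⟩
    dsimp only at hu hv ⊢
    rw [(code_fl P i j T k).1] at hu hv ⊢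
    exact ⟨_, (single_le_sum (f := fun v => |P ⟨u, hu⟩ v|) (fun _ _ => abs_nonneg _)
      (mem_univ _)).trans (h _), code_has P i j T k ⟨u, hu⟩ ⟨v, hv⟩⟩

/-- Powers. -/
theorem exists_pow : ∃ D : Machine (Option Bool), FL D ∧ ∀ (n : ℕ) (P : Matrix (Fin n) (Fin n) ℚ)
    (i j : Fin n) (T k : ℕ), (∀ u, ∑ v, |P u v| ≤ 1) →
    Approx D (code P i j T k) (k * (P ^ T) i j) := by
  obtain ⟨D, hD, h⟩ := exists_apx (C := Pr) (AP.natMul (sp_fl SP.id (SP.const 4))
    (ap_pe.comp (SP.id.pair (sp_fl SP.id (SP.const 3))) fun _ h => h))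
  refine ⟨D, hD, fun n P i j T k hP => h _ ⟨n, P, i, j, T, k, rfl, hP⟩ _ ?_⟩
  obtain ⟨-, -, -, h3, h4⟩ := code_fl P i j T k
  rw [h3, h4, pe_code]
  simp

variable {P j}

theorem abs_pow_mul_le (hP : ∀ u, ∑ v, |P u v| ≤ 1) {H : Matrix (Fin n) (Fin n) ℚ} {c : ℚ}
    (hH : ∀ u, |H u j| ≤ c) (t : ℕ) : ∀ u, |(P ^ t * H) u j| ≤ c := by
  induction t with
  | zero => simpa using hH
  | succ t ih =>
    intro u
    rw [pow_succ', mul_assoc, Matrix.mul_apply]
    refine (abs_sum_le_sum_abs _ _).trans ((sum_le_sum (g := fun v => |P u v| * c)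
      fun v _ => ?_).trans ?_)
    · rw [abs_mul]
      exact mul_le_mul_of_nonneg_left (ih v) (abs_nonneg _)
    · rw [← sum_mul]
      exact mul_le_of_le_one_left ((abs_nonneg _).trans (hH u)) (hP u)

variable {G E : Matrix (Fin n) (Fin n) ℚ} {c : ℚ}

theorem geom_eq (hG : (1 - P) * G = 1 - E) (hE : P * E = E) (N : ℕ) :
    ∑ t ∈ range N, P ^ t = G - P ^ N * G + N • E := by
  induction N with
  | zero => simp
  | succ N ih =>
    have h1 : ∀ t, P ^ t * E = E := fun t => by
      induction t with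
      | zero => simp
      | succ t ih => rw [pow_succ, mul_assoc, hE, ih]
    have h2 := congrArg (P ^ N * ·) hG
    simp only [sub_mul, mul_sub, one_mul, mul_one, ← mul_assoc, ← pow_succ, h1] at h2
    rw [sum_range_succ, ih, succ_nsmul, ← sub_sub_cancel (P ^ N * G) (P ^ (N + 1) * G), h2]
    abel

/-- The means of the powers converge to the projection. -/
theorem cesaro1 (hP : ∀ u, ∑ v, |P u v| ≤ 1) (hG : (1 - P) * G = 1 - E) (hE : P * E = E)
    (hc : ∀ u v, |G u v| ≤ c) (M : ℕ) : |M * E i j - ∑ t ∈ range M, (P ^ t) i j| ≤ 2 * c := by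
  have h4 := congrFun (congrFun (geom_eq hG hE M) i) j
  simp only [Matrix.sum_apply, Matrix.sub_apply, Matrix.add_apply, Matrix.smul_apply] at h4
  rw [h4, nsmul_eq_mul]
  have h5 := abs_le.1 (hc i j)
  have h6 := abs_le.1 (abs_pow_mul_le hP (fun u => hc u j) M i)
  rw [abs_le]
  constructor <;> linarith

/-- The means of the finite geometric series give the inverse. -/
theorem cesaro2 (hP : ∀ u, ∑ v, |P u v| ≤ 1) (hG : (1 - P) * G = 1 - E) (hE : P * E = E)
    (h0 : E * G = 0) (hc : ∀ u v, |G u v| ≤ c) (H : ℕ) :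
    |(2 * H + 1 : ℕ) * (G i j + H * E i j) -
      ∑ N ∈ range (2 * H + 1), ∑ t ∈ range N, (P ^ t) i j| ≤ 2 * (n * c ^ 2) := by
  have h1 : ∑ N ∈ range (2 * H + 1), N = (2 * H + 1) * H := by
    have := sum_range_id_mul_two (2 * H + 1)
    rw [Nat.add_sub_cancel] at this
    linarith
  have h2 : ∑ N ∈ range (2 * H + 1), ∑ t ∈ range N, P ^ t =
      (2 * H + 1) • G - (G * G - P ^ (2 * H + 1) * (G * G)) + ((2 * H + 1) * H) • E := by
    rw [sum_congr rfl fun N _ => geom_eq hG hE N, sum_add_distrib, sum_sub_distrib, ← sum_mul,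
      geom_eq hG hE, add_mul, sub_mul, mul_assoc, sum_const, card_range, smul_mul_assoc, h0,
      smul_zero, add_zero, ← sum_smul, h1]
  have h3 : ∀ u, |(G * G) u j| ≤ n * c ^ 2 := fun u => by
    rw [Matrix.mul_apply]
    refine (abs_sum_le_sum_abs _ _).trans ((sum_le_sum (g := fun _ => c ^ 2)
      fun v _ => ?_).trans (by simp))
    rw [abs_mul, sq]
    exact mul_le_mul (hc _ _) (hc _ _) (abs_nonneg _) ((abs_nonneg _).trans (hc u v))
  have h4 := congrFun (congrFun h2 i) j
  simp only [Matrix.sum_apply, Matrix.sub_apply, Matrix.add_apply, Matrix.smul_apply] at h4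
  rw [h4, nsmul_eq_mul, nsmul_eq_mul]
  have h5 := abs_le.1 (h3 i)
  have h6 := abs_le.1 (abs_pow_mul_le hP h3 (2 * H + 1) i)
  push_cast
  rw [abs_le]
  constructor <;> linarith

theorem ap_sum {N : Inp (Option Bool) → ℕ} (hN : SP BO N) :
    AP BO (fun x : Inp (Option Bool) => Pr x) fun x => (∑ t ∈ range (N x), pe x t) / N x :=
  AP.divNat hN (AP.sum (s := fun x t => pe x t) hN
    (ap_pe.comp (φ := fun q : Inp (Option Bool) × ℕ => q) SP.id fun _ h => h.1))

theorem ap_sum2 {N : Inp (Option Bool) → ℕ} (hN : SP BO N) :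
    AP BO (fun x : Inp (Option Bool) => Pr x)
      fun x => (∑ m ∈ range (N x), ∑ t ∈ range m, pe x t) / N x := by
  have b1 : AP BO (fun q : (Inp (Option Bool) × ℕ) × ℕ => (Pr q.1.1 ∧ q.1.2 < N q.1.1) ∧
      q.2 < q.1.2) fun q => pe q.1.1 q.2 :=
    ap_pe.comp (φ := fun q : (Inp (Option Bool) × ℕ) × ℕ => (q.1.1, q.2))
      (SP.fst'.fst.pair SP.snd') fun _ h => h.1.1
  have b2 := AP.sum (C := fun p : Inp (Option Bool) × ℕ => Pr p.1 ∧ p.2 < N p.1)
    (s := fun p t => pe p.1 t) SP.snd' b1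
  exact AP.divNat hN (AP.sum (C := fun x : Inp (Option Bool) => Pr x)
    (s := fun x m => ∑ t ∈ range m, pe x t) hN b2)

theorem div_apx {M : ℕ} {a s c : ℝ} (hM : 0 < M) (h : |M * a - s| ≤ c) : |a - s / M| ≤ c / M := by
  have h0 : (0 : ℝ) < M := by exact_mod_cast hM
  rw [show a - s / M = (M * a - s) / M by field_simp, abs_div, Nat.abs_cast]
  exact div_le_div_of_nonneg_right h h0.le

/-- Projections. -/
theorem exists_proj : ∃ D : Machine (Option Bool), FL D ∧ ∀ (n : ℕ)
    (P G E : Matrix (Fin n) (Fin n) ℚ) (i j : Fin n) (T k : ℕ), (∀ u, ∑ v, |P u v| ≤ 1) →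
    (1 - P) * G = 1 - E → P * E = E → (∀ u v, |G u v| ≤ T) →
    Approx D (code P i j T k) (k * E i j) := by
  have hf : ∀ a, SP BO fun x : Inp (Option Bool) => fl x a := fun a => sp_fl SP.id (SP.const a)
  obtain ⟨D, hD, h⟩ := exists_apx (AP.natMul (hf 4)
    (ap_sum ((((SP.const 8).mul (hf 4)).mul (hf 3)).add (SP.const 1))))
  refine ⟨D, hD, fun n P G E i j T k hP hG hE hT => h _ ⟨n, P, i, j, T, k, rfl, hP⟩ _ ?_⟩
  obtain ⟨-, -, -, h3, h4⟩ := code_fl P i j T k
  simp only [h3, h4, pe_code]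
  have a1 := div_apx (M := 8 * k * T + 1) (a := E i j) (c := 2 * T)
    (s := ∑ t ∈ range (8 * k * T + 1), ((P ^ t) i j : ℝ)) (Nat.succ_pos _)
    (by exact_mod_cast cesaro1 i hP hG hE hT _)
  rw [Rat.cast_mul, Rat.cast_natCast, ← mul_sub, abs_mul, Nat.abs_cast]
  refine (mul_le_mul_of_nonneg_left a1 (by positivity)).trans ?_
  rw [← mul_div_assoc, div_le_iff₀ (by positivity)]
  push_cast
  linarith

/-- Inverses. -/
theorem exists_inv : ∃ D : Machine (Option Bool), FL D ∧ ∀ (n : ℕ)
    (P G E : Matrix (Fin n) (Fin n) ℚ) (i j : Fin n) (T k : ℕ), (∀ u, ∑ v, |P u v| ≤ 1) →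
    (1 - P) * G = 1 - E → P * E = E → E * G = 0 → (∀ u v, |G u v| ≤ T) →
    Approx D (code P i j T k) (k * G i j) := by
  have hf : ∀ a, SP BO fun x : Inp (Option Bool) => fl x a := fun a => sp_fl SP.id (SP.const a)
  have hH := ((SP.const 8).mul (hf 4)).mul ((hf 0).mul ((hf 3).pow_const 2))
  obtain ⟨D, hD, h⟩ := exists_apx (AP.natMul (hf 4) (AP.sub
    (ap_sum2 (((SP.const 2).mul hH).add (SP.const 1))) (AP.natMul hH
    (ap_sum (((((SP.const 16).mul (hf 4)).mul hH).mul (hf 3)).add (SP.const 1))))))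
  refine ⟨D, hD, fun n P G E i j T k hP hG hE h0 hT => h _ ⟨n, P, i, j, T, k, rfl, hP⟩ _ ?_⟩
  obtain ⟨h1, -, -, h3, h4⟩ := code_fl P i j T k
  simp only [h1, h3, h4, pe_code]
  set H := 8 * k * (n * T ^ 2) with hH
  have a1 := div_apx (M := 16 * k * H * T + 1) (a := E i j) (c := 2 * T)
    (s := ∑ t ∈ range (16 * k * H * T + 1), ((P ^ t) i j : ℝ)) (Nat.succ_pos _)
    (by exact_mod_cast cesaro1 i hP hG hE hT _)
  have a2 := div_apx (M := 2 * H + 1) (a := G i j + H * E i j) (c := 2 * (n * T ^ 2))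
    (s := ∑ N ∈ range (2 * H + 1), ∑ t ∈ range N, ((P ^ t) i j : ℝ)) (Nat.succ_pos _)
    (by exact_mod_cast cesaro2 i hP hG hE h0 hT _)
  generalize (∑ t ∈ range (16 * k * H * T + 1), ((P ^ t) i j : ℝ)) / (16 * k * H * T + 1 : ℕ) = s
    at a1
  generalize (∑ N ∈ range (2 * H + 1), ∑ t ∈ range N, ((P ^ t) i j : ℝ)) / (2 * H + 1 : ℕ) = s'
    at a2
  have a3 : (k : ℝ) * (2 * (n * T ^ 2) / (2 * H + 1 : ℕ)) ≤ 1 / 8 := by
    rw [← mul_div_assoc, div_le_iff₀ (by positivity), hH]
    push_cast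
    linarith
  have a4 : (k * H : ℝ) * (2 * T / (16 * k * H * T + 1 : ℕ)) ≤ 1 / 8 := by
    rw [← mul_div_assoc, div_le_iff₀ (by positivity)]
    push_cast
    linarith
  have a5 := (mul_le_mul_of_nonneg_left a1 (by positivity : (0 : ℝ) ≤ k * H)).trans a4
  have a6 := (mul_le_mul_of_nonneg_left a2 (by positivity : (0 : ℝ) ≤ k)).trans a3
  rw [Rat.cast_mul, Rat.cast_natCast, show (k * G i j : ℝ) - k * (s' - H * s) =
    k * (G i j + H * E i j - s') - k * H * (E i j - s) by ring]
  refine (abs_sub _ _).trans ?_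
  rw [abs_mul, abs_mul, abs_mul, Nat.abs_cast, Nat.abs_cast]
  linarith

end Vale.Agent.N313M
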