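import Vale.Agent.N313M.Search

/-! Approximation of real numbers in small space. Powers of matrices. -/

namespace Vale.Agent.N313M

open Finset Function Vale.Agent.Lib.Space Vale.Agent.P313 Vale.Agent.N313
open Vale.Agent.P313.Full (ZSP RSP)

variable {A α β : Type} [Enc A α] [Enc A β] {B : Bud A}

/-- Under the promise `C` the number `K * r a` is computed up to the error one. -/
def AP (B : Bud A) (C : α → Prop) (r : α → ℝ) : Prop :=
  ∃ z : α × ℕ → ℤ, ZSP B z ∧ ∀ (x : List A) a (K : ℕ), Enc.ok x a → C a →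
    |(z (a, K) : ℝ) - K * r a| ≤ 1

variable {C : α → Prop} {r r' : α → ℝ}

theorem AP.of_apx {z : α × ℕ → ℤ} {D : α × ℕ → ℕ} (hz : ZSP B z) (hD : SP B D)
    (h : ∀ (x : List A) a (K : ℕ), Enc.ok x a → C a →
      0 < D (a, K) ∧ 2 * K * |(z (a, K) : ℝ) - D (a, K) * r a| ≤ D (a, K)) : AP B C r := by
  refine ⟨fun p => round ((p.2 : ℝ) * (z p / D p)), Full.RSP.round ((Full.RSP.natCast SP.snd').mul
    ((Full.RSP.intCast hz).div (Full.RSP.natCast hD))), fun x a K ha hc => ?_⟩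
  obtain ⟨h1, h2⟩ := h x a K ha hc
  have h3 : (0 : ℝ) < D (a, K) := by exact_mod_cast h1
  have h4 := abs_sub_round ((K : ℝ) * (z (a, K) / D (a, K)))
  have h5 : |(K : ℝ) * (z (a, K) / D (a, K)) - K * r a| ≤ 1 / 2 := by
    have : (K : ℝ) * (z (a, K) / D (a, K)) - K * r a =
        K * (z (a, K) - D (a, K) * r a) / D (a, K) := by field_simp
    rw [this, abs_div, abs_mul, abs_of_pos h3, Nat.abs_cast, div_le_iff₀ h3]
    linarith only [h2]
  rw [abs_sub_comm] at h4
  exact (abs_sub_le _ _ _).trans ((add_le_add h4 h5).trans_eq (by norm_num))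

theorem AP.comp {C' : β → Prop} {φ : β → α} (h : AP B C r) (hφ : SP B φ)
    (hC : ∀ b, C' b → C (φ b)) : AP B C' fun b => r (φ b) := by
  obtain ⟨z, h1, h2⟩ := h
  exact ⟨fun p => z (φ p.1, p.2), h1.comp ((hφ.comp SP.fst').pair SP.snd'),
    fun x b K hb hc => h2 x _ K (hφ.ok hb) (hC b hc)⟩

theorem AP.sub (h : AP B C r) (h' : AP B C r') : AP B C fun a => r a - r' a := by
  obtain ⟨z, h1, h2⟩ := h
  obtain ⟨z', h3, h4⟩ := h'
  have hD : SP B fun p : α × ℕ => 4 * p.2 + 1 := ((SP.const 4).mul SP.snd').add (SP.const 1)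
  refine AP.of_apx ((h1.comp (SP.fst'.pair hD)).sub (h3.comp (SP.fst'.pair hD))) hD
    fun x a K ha hc => ⟨Nat.succ_pos _, ?_⟩
  have a1 := abs_le.1 (h2 x a (4 * K + 1) ha hc)
  have a2 := abs_le.1 (h4 x a (4 * K + 1) ha hc)
  have a3 : |((z (a, 4 * K + 1) - z' (a, 4 * K + 1) : ℤ) : ℝ) -
      (4 * K + 1 : ℕ) * (r a - r' a)| ≤ 2 := by
    rw [abs_le, Int.cast_sub]
    constructor <;> linarith
  have a4 : (0 : ℝ) ≤ K := Nat.cast_nonneg _
  refine (mul_le_mul_of_nonneg_left a3 (by positivity)).trans ?_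
  push_cast
  linarith

theorem AP.natMul {k : α → ℕ} (hk : SP B k) (h : AP B C r) : AP B C fun a => k a * r a := by
  obtain ⟨z, h1, h2⟩ := h
  refine ⟨fun p => z (p.1, p.2 * k p.1), h1.comp (SP.fst'.pair (SP.snd'.mul (hk.comp SP.fst'))),
    fun x a K ha hc => ?_⟩
  have := h2 x a (K * k a) ha hc
  rwa [Nat.cast_mul, mul_assoc] at this

theorem AP.divNat {k : α → ℕ} (hk : SP B k) (h : AP B C r) : AP B C fun a => r a / k a := by
  obtain ⟨z, h1, h2⟩ := h
  have hD : SP B fun p : α × ℕ => 2 * p.2 + 1 := ((SP.const 2).mul SP.snd').add (SP.const 1)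
  have hk' : SP B fun p : α × ℕ => k p.1 := hk.comp SP.fst'
  refine AP.of_apx (Full.ZSP.ite (hk'.decide_eq (SP.const 0)) (Full.ZSP.const 0)
    (h1.comp (SP.fst'.pair hD))) (hD.mul (hk'.max (SP.const 1))) fun x a K ha hc =>
      ⟨by positivity, ?_⟩
  have a1 := h2 x a (2 * K + 1) ha hc
  dsimp only
  split_ifs with e
  · simp only [e, Nat.cast_zero, div_zero, mul_zero, Int.cast_zero, sub_zero, abs_zero]
    positivity
  · have a2 : (1 : ℝ) ≤ k a := by exact_mod_cast Nat.pos_of_ne_zero e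
    have a4 : (0 : ℝ) ≤ K := Nat.cast_nonneg _
    rw [max_eq_left (Nat.pos_of_ne_zero e), Nat.cast_mul, mul_assoc _ (k a : ℝ),
      mul_div_cancel₀ _ (by linarith)]
    refine (mul_le_mul_of_nonneg_left a1 (by positivity)).trans ?_
    push_cast
    nlinarith

theorem AP.close {s : α × ℕ → ℝ} (h : AP B (fun p => C p.1) s)
    (hs : ∀ (x : List A) a (K : ℕ), Enc.ok x a → C a → 4 * K * |s (a, K) - r a| ≤ 1) :
    AP B C r := by
  obtain ⟨z, h1, h2⟩ := h
  have hD : SP B fun p : α × ℕ => 4 * p.2 + 1 := ((SP.const 4).mul SP.snd').add (SP.const 1)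
  refine AP.of_apx (h1.comp (SP.id.pair hD)) hD fun x a K ha hc => ⟨Nat.succ_pos _, ?_⟩
  have a1 := h2 x (a, K) (4 * K + 1) ⟨ha, trivial⟩ hc
  have a2 := hs x a K ha hc
  have a4 : (0 : ℝ) ≤ K := Nat.cast_nonneg _
  have a3 : |(z ((a, K), 4 * K + 1) : ℝ) - (4 * K + 1 : ℕ) * r a| ≤
      1 + (4 * K + 1 : ℕ) * |s (a, K) - r a| := by
    refine (abs_sub_le _ ((4 * K + 1 : ℕ) * s (a, K)) _).trans (add_le_add a1 ?_)
    rw [← mul_sub, abs_mul, Nat.abs_cast]
  refine (mul_le_mul_of_nonneg_left a3 (by positivity)).trans ?_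
  push_cast
  nlinarith

theorem AP.sum {N : α → ℕ} {s : α → ℕ → ℝ} (hN : SP B N)
    (h : AP B (fun p : α × ℕ => C p.1 ∧ p.2 < N p.1) fun p => s p.1 p.2) :
    AP B C fun a => ∑ t ∈ range (N a), s a t := by
  obtain ⟨z, h1, h2⟩ := h
  have hD : SP B fun p : α × ℕ => 2 * p.2 * N p.1 + 1 :=
    (((SP.const 2).mul SP.snd').mul (hN.comp SP.fst')).add (SP.const 1)
  refine AP.of_apx (Full.ZSP.sum_range (f := fun p t => z ((p.1, t), 2 * p.2 * N p.1 + 1))
    (hN.comp SP.fst') (h1.comp ((SP.fst'.fst.pair SP.snd').pair (hD.comp SP.fst')))) hD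
    fun x a K ha hc => ⟨Nat.succ_pos _, ?_⟩
  have a3 : |((∑ t ∈ range (N a), z ((a, t), 2 * K * N a + 1) : ℤ) : ℝ) -
      (2 * K * N a + 1 : ℕ) * ∑ t ∈ range (N a), s a t| ≤ N a := by
    rw [Int.cast_sum, mul_sum, ← sum_sub_distrib]
    refine (abs_sum_le_sum_abs _ _).trans ((sum_le_sum fun t ht =>
      h2 x (a, t) _ ⟨ha, trivial⟩ ⟨hc, mem_range.1 ht⟩).trans ?_)
    simp
  refine (mul_le_mul_of_nonneg_left a3 (by positivity)).trans ?_
  push_cast
  linarith

theorem AP.walk {W T u0 : α → ℕ} {f : α → ℕ → Bool → ℕ} {g : α → ℕ → Bool}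
    (h : Walk B W T u0 f g) :
    AP B C fun a => ex (f a) (T a) (fun v => ((g a v).toNat : ℝ)) (u0 a) := by
  have hD : SP B fun p : α × ℕ => 4 * p.2 + 1 := ((SP.const 4).mul SP.snd').add (SP.const 1)
  obtain ⟨m, m1, m2⟩ := (h.comp (SP.fst' (β := ℕ))).apx hD fun _ => Nat.succ_pos _
  refine AP.of_apx (Full.ZSP.natCast m1) hD fun x a K ha _ => ⟨Nat.succ_pos _, ?_⟩
  have a1 := m2 x (a, K) ⟨ha, trivial⟩
  rw [mul_comm] at a1
  have a4 : (0 : ℝ) ≤ K := Nat.cast_nonneg _
  rw [Int.cast_natCast]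
  refine (mul_le_mul_of_nonneg_left a1 (by positivity)).trans ?_
  push_cast
  linarith

/-! ### Powers -/

/-- The column `j` of the powers of a matrix. -/
noncomputable def pw (n : ℕ) (a : ℕ → ℕ → ℝ) (j : ℕ) : ℕ → ℕ → ℝ
  | 0, u => if u = j then 1 else 0
  | t + 1, u => ∑ v ∈ range n, a u v * pw n a j t v

theorem pw_eq {n : ℕ} {a : ℕ → ℕ → ℝ} {P : Matrix (Fin n) (Fin n) ℚ}
    (h : ∀ u v : Fin n, a u v = P u v) (j : Fin n) (t : ℕ) (u : Fin n) :
    pw n a j t u = (P ^ t) u j := by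
  induction t generalizing u with
  | zero =>
    rw [pw, pow_zero, Matrix.one_apply]
    simp only [Fin.ext_iff]
    split_ifs <;> simp
  | succ t ih =>
    rw [pw, pow_succ', Matrix.mul_apply, sum_range, Rat.cast_sum]
    exact sum_congr rfl fun v _ => by rw [h, ih, Rat.cast_mul]

theorem abs_pw_le {n : ℕ} {a : ℕ → ℕ → ℝ} (h : ∀ u < n, ∑ v ∈ range n, |a u v| ≤ 1) (j t : ℕ) :
    ∀ u < n, |pw n a j t u| ≤ 1 := by
  induction t with
  | zero =>
    intro u _
    rw [pw]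
    split_ifs <;> simp
  | succ t ih =>
    intro u hu
    refine (abs_sum_le_sum_abs _ _).trans ((sum_le_sum fun v hv => ?_).trans (h u hu))
    rw [abs_mul]
    exact mul_le_of_le_one_right (abs_nonneg _) (ih v (mem_range.1 hv))

theorem pw_sub {n : ℕ} {a a' : ℕ → ℕ → ℝ} {ε : ℝ} (h : ∀ u < n, ∑ v ∈ range n, |a u v| ≤ 1)
    (h' : ∀ u < n, ∑ v ∈ range n, |a' u v| ≤ 1) (e : ∀ u < n, ∀ v < n, |a' u v - a u v| ≤ ε)
    (j t : ℕ) : ∀ u < n, |pw n a' j t u - pw n a j t u| ≤ t * (n * ε) := by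
  induction t with
  | zero => intro u _; simp [pw]
  | succ t ih =>
    intro u hu
    have h0 : 0 ≤ (t : ℝ) * (n * ε) := (abs_nonneg _).trans (ih u hu)
    rw [pw, pw, ← sum_sub_distrib]
    refine (abs_sum_le_sum_abs _ _).trans ((sum_le_sum
      (g := fun v => |a' u v| * (t * (n * ε)) + ε) fun v hv => ?_).trans ?_)
    · have hv' := mem_range.1 hv
      rw [show a' u v * pw n a' j t v - a u v * pw n a j t v =
        a' u v * (pw n a' j t v - pw n a j t v) + (a' u v - a u v) * pw n a j t v by ring]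
      refine (abs_add_le _ _).trans (add_le_add ?_ ?_)
      · rw [abs_mul]
        exact mul_le_mul_of_nonneg_left (ih v hv') (abs_nonneg _)
      · rw [abs_mul]
        exact (mul_le_of_le_one_right (abs_nonneg _) (abs_pw_le h j t v hv')).trans (e u hu v hv')
    · rw [sum_add_distrib, ← sum_mul, sum_const, card_range, nsmul_eq_mul]
      have := mul_le_of_le_one_left h0 (h' u hu)
      push_cast
      linarith

/-- A walk which collects bits for a random number below `R`. -/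
def bw (S R : ℕ) (G : ℕ → ℕ → ℕ) (w : ℕ) (b : Bool) : ℕ :=
  if 2 * (w / S) + b.toNat < R then w % S + S * (2 * (w / S) + b.toNat)
  else G (w % S) (2 * (w / S) + b.toNat - R) + S * 1

theorem ex_bw {S R s : ℕ} (G : ℕ → ℕ → ℕ) (H : ℕ → ℝ) (hs : s < S) (j : ℕ) :
    ∀ y, R ≤ y * 2 ^ (j + 1) → (y + 1) * 2 ^ j ≤ R → ex (bw S R G) (j + 1) H (s + S * y) =
      (∑ e ∈ range (2 ^ (j + 1)), H (G s (y * 2 ^ (j + 1) + e - R) + S * 1)) / 2 ^ (j + 1) := by
  induction j with
  | zero =>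
    intro y h1 _
    simp only [ex, bw, Red.add_mul_mod hs, Red.add_mul_div hs]
    rw [if_neg (by omega), if_neg (by omega)]
    simp [sum_range_succ, mul_comm]
  | succ j ih =>
    intro y h1 h2
    have h3 : 1 ≤ 2 ^ j := Nat.one_le_two_pow
    have h4 : ∀ b : Bool, bw S R G (s + S * y) b = s + S * (2 * y + b.toNat) := fun b => by
      have := Bool.toNat_le b
      rw [bw, Red.add_mul_mod hs, Red.add_mul_div hs, if_pos (by rw [pow_succ] at h2; nlinarith)]
    rw [ex, h4, h4, ih _ (by rw [pow_succ] at h1; simp only [Bool.toNat_false]; nlinarith)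
        (by rw [pow_succ] at h2; simp only [Bool.toNat_false]; nlinarith),
      ih _ (by rw [pow_succ] at h1; simp only [Bool.toNat_true]; nlinarith [Nat.zero_le (2 ^ (j + 1))])
        (by rw [pow_succ] at h2; simp only [Bool.toNat_true]; nlinarith),
      show 2 ^ (j + 1 + 1) = 2 ^ (j + 1) + 2 ^ (j + 1) by ring, sum_range_add, ← add_div, div_div,
      ← pow_succ]
    congr 2
    · refine sum_congr rfl fun e _ => ?_
      congr 4
      simp only [Bool.toNat_false]
      ring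
    · refine sum_congr rfl fun e _ => ?_
      congr 4
      simp only [Bool.toNat_true]
      ring

/-- The index of the interval which contains `y`. -/
def ix (p : ℕ → ℕ) (n y : ℕ) : ℕ := ∑ v ∈ range n, if ∑ i ∈ range (v + 1), p i ≤ y then 1 else 0

theorem sum_ix (p : ℕ → ℕ) (F : ℕ → ℝ) (n : ℕ) : ∀ d, ∑ y ∈ range (∑ i ∈ range n, p i + d),
    F (ix p n y) = ∑ v ∈ range n, p v * F v + d * F n := by
  induction n with
  | zero => intro d; simp [ix]
  | succ n ih =>
    intro d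
    rw [sum_range_add, sum_range_succ fun v => p v * F v, ← ih (p n), ← sum_range_succ]
    congr 1
    · refine sum_congr rfl fun y hy => ?_
      rw [ix, sum_range_succ, if_neg (not_le.2 (mem_range.1 hy))]
      rfl
    · rw [sum_congr rfl (g := fun _ => F (n + 1)) fun y _ => ?_]
      · simp
      · rw [ix, sum_congr rfl (g := fun _ => 1) fun v hv => if_pos ?_]
        · simp
        · exact (sum_le_sum_of_subset (range_mono (mem_range.1 hv))).trans (Nat.le_add_right _ _)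

/-- The transition of the signed walk. -/
def tv (n : ℕ) (z : ℕ → ℕ → ℤ) (s y : ℕ) : ℕ :=
  if s < 2 * n ∧ ix (fun v => (z (s / 2) v).natAbs - 1) n y < n then
    2 * ix (fun v => (z (s / 2) v).natAbs - 1) n y +
      (s + if z (s / 2) (ix (fun v => (z (s / 2) v).natAbs - 1) n y) < 0 then 1 else 0) % 2
  else 2 * n

theorem tv_lt (n : ℕ) (z : ℕ → ℕ → ℤ) (s y : ℕ) : tv n z s y < 2 * n + 1 := by
  unfold tv
  split_ifs <;> omega

/-- The rounded matrix. -/
noncomputable def rd (R : ℕ) (z : ℕ → ℕ → ℤ) (u v : ℕ) : ℝ :=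
  (if z u v < 0 then -1 else 1) * ((z u v).natAbs - 1 : ℕ) / R

theorem ex_tv {n r j : ℕ} (hj : j < n) (z : ℕ → ℕ → ℤ)
    (hz : ∀ u < n, ∑ v ∈ range n, ((z u v).natAbs - 1) ≤ 2 ^ (r + 1)) (t : ℕ) : ∀ s < 2 * n + 1,
    ex (bw (2 * n + 1) (2 ^ (r + 1)) (tv n z)) (t * (r + 1))
      (fun w => ((decide (w = 2 * j + (2 * n + 1) * 1)).toNat : ℝ) -
        (decide (w = 2 * j + 1 + (2 * n + 1) * 1)).toNat) (s + (2 * n + 1) * 1) =
      if s < 2 * n then (-1) ^ s * pw n (rd (2 ^ (r + 1)) z) j t (s / 2) else 0 := by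
  induction t with
  | zero =>
    intro s hs
    rw [zero_mul, ex, pw]
    by_cases h1 : s = 2 * j
    · subst h1
      rw [if_pos (by omega), if_pos (by omega)]
      simp
    by_cases h2 : s = 2 * j + 1
    · subst h2
      rw [if_pos (by omega), if_pos (by omega)]
      simp [pow_succ]
    · rw [decide_eq_false (by omega), decide_eq_false (by omega), if_neg (show ¬ s / 2 = j by omega)]
      simp
  | succ t ih =>
    intro s hs
    rw [show (t + 1) * (r + 1) = r + 1 + t * (r + 1) by ring, ex_steps,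
      ex_bw (R := 2 ^ (r + 1)) _ _ hs r 1 (by omega) (by omega),
      sum_congr rfl fun e _ => ih _ (tv_lt _ _ _ _)]
    simp only [one_mul, Nat.add_sub_cancel_left]
    by_cases h : s < 2 * n
    · obtain ⟨d, hd⟩ := Nat.exists_eq_add_of_le (hz (s / 2) (by omega))
      have key := sum_ix (fun v => (z (s / 2) v).natAbs - 1) (fun v => if v < n then
        (-1) ^ s * ((if z (s / 2) v < 0 then -1 else 1) * pw n (rd (2 ^ (r + 1)) z) j t v) else 0) n d
      rw [← hd, if_neg (lt_irrefl n), mul_zero, add_zero] at key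
      rw [if_pos h, sum_congr rfl fun e _ => ?_, key, pw, mul_sum, sum_div]
      · refine sum_congr rfl fun v hv => ?_
        rw [if_pos (mem_range.1 hv), rd]
        push_cast
        ring
      · unfold tv
        generalize ix (fun v => (z (s / 2) v).natAbs - 1) n e = v
        by_cases hv : v < n
        · rw [if_pos (And.intro h hv), if_pos hv, if_pos (by omega), pow_add, pow_mul,
            ← neg_one_pow_eq_pow_mod_two, pow_add, Nat.mul_add_div (by omega),
            Nat.div_eq_of_lt (Nat.mod_lt _ (by omega))]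
          split_ifs <;> simp
        · rw [if_neg (show ¬ (s < 2 * n ∧ v < n) from fun a => hv a.2), if_neg hv,
            if_neg (lt_irrefl _)]
    · rw [if_neg h, sum_eq_zero fun e _ => ?_, zero_div]
      have : tv n z s e = 2 * n := if_neg fun a => h a.1
      rw [this, if_neg (lt_irrefl _)]

theorem rd_apx {R : ℕ} (hR : 0 < R) {z : ℤ} {a : ℝ} (h : |(z : ℝ) - R * a| ≤ 1) :
    ((z.natAbs - 1 : ℕ) : ℝ) ≤ R * |a| ∧
      |(if z < 0 then -1 else 1) * ((z.natAbs - 1 : ℕ) : ℝ) / R - a| ≤ 2 / R := by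
  have hR' : (0 : ℝ) < R := by exact_mod_cast hR
  have h1 := abs_le.1 h
  have h2 : ∀ c : ℝ, |c - R * a| ≤ 2 → |c / R - a| ≤ 2 / R := fun c hc => by
    rw [div_sub' hR'.ne', abs_div, abs_of_pos hR']
    exact div_le_div_of_nonneg_right hc hR'.le
  have h3 := mul_le_mul_of_nonneg_left (le_abs_self a) hR'.le
  have h4 := mul_le_mul_of_nonneg_left (neg_le_abs a) hR'.le
  rcases lt_trichotomy z 0 with e | rfl | e
  · have e1 : ((z.natAbs - 1 : ℕ) : ℝ) = -z - 1 := by
      have : ((z.natAbs - 1 : ℕ) : ℤ) = -z - 1 := by omega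
      exact_mod_cast this
    rw [if_pos e, e1]
    exact ⟨by linarith, h2 _ (abs_le.2 ⟨by linarith, by linarith⟩)⟩
  · simp only [Int.cast_zero] at h1
    refine ⟨by simp; positivity, h2 _ (abs_le.2 ⟨?_, ?_⟩)⟩ <;> simp <;> linarith
  · have e1 : ((z.natAbs - 1 : ℕ) : ℝ) = z - 1 := by
      have : ((z.natAbs - 1 : ℕ) : ℤ) = z - 1 := by omega
      exact_mod_cast this
    rw [if_neg (by omega), e1]
    exact ⟨by linarith, h2 _ (abs_le.2 ⟨by linarith, by linarith⟩)⟩

/-- Powers of matrices with absolute row sums at most one. -/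
theorem AP.pow {n T i j : α → ℕ} {a : α → ℕ → ℕ → ℝ} (hn : SP B n) (hT : SP B T) (hi : SP B i)
    (hj : SP B j) (ha : AP B (fun p : α × ℕ × ℕ => C p.1 ∧ p.2.1 < n p.1 ∧ p.2.2 < n p.1)
      fun p => a p.1 p.2.1 p.2.2)
    (h : ∀ c, C c → i c < n c ∧ j c < n c ∧ ∀ u < n c, ∑ v ∈ range (n c), |a c u v| ≤ 1) :
    AP B C fun c => pw (n c) (a c) (j c) (T c) (i c) := by
  obtain ⟨z, z1, z2⟩ := ha
  set r : α × ℕ → ℕ := fun p => Nat.size (8 * p.2 * T p.1 * n p.1) with hr
  have e0 : SP B fun p : α × ℕ => 8 * p.2 * T p.1 * n p.1 :=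
    (((SP.const 8).mul SP.snd').mul (hT.comp SP.fst')).mul (hn.comp SP.fst')
  have e1 : SP B fun p => r p + 1 := (Full.sp_size e0).add (SP.const 1)
  have e2 : SP B fun p => 2 ^ (r p + 1) :=
    ((Full.sp_two_pow_size e0).mul (SP.const 2)).congr fun p => (pow_succ _ _).symm
  have e3 : SP B fun p : α × ℕ => n p.1 := hn.comp SP.fst'
  have e4 : SP B fun p : α × ℕ => 2 * n p.1 + 1 := ((SP.const 2).mul e3).add (SP.const 1)
  set Z : α × ℕ → ℕ → ℕ → ℤ := fun p u v => z ((p.1, u, v), 2 ^ (r p + 1)) with hZ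
  have e5 : ZSP B fun q : (α × ℕ) × ℕ × ℕ => Z q.1 q.2.1 q.2.2 :=
    z1.comp ((SP.fst'.fst.pair SP.snd').pair (e2.comp SP.fst'))
  have e6 : SP B fun q : (α × ℕ) × ℕ × ℕ =>
      ix (fun v => (Z q.1 (q.2.1 / 2) v).natAbs - 1) (n q.1.1) q.2.2 := by
    refine SP.sum_range (e3.comp SP.fst') (SP.ite (SP.decide_le (SP.sum_range
      (SP.snd'.add (SP.const 1)) ?_) SP.fst'.snd.snd) (SP.const 1) (SP.const 0))
    exact (e5.comp (SP.fst'.fst.fst.pair ((SP.fst'.fst.snd.fst.div (SP.const 2)).pair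
      SP.snd'))).natAbs.sub (SP.const 1)
  have e7 : SP B fun q : (α × ℕ) × ℕ × ℕ => tv (n q.1.1) (Z q.1) q.2.1 q.2.2 := by
    have b1 := (SP.const 2).mul (e3.comp (SP.fst' (β := ℕ × ℕ)))
    exact SP.ite (SP.decide_and (SP.snd'.fst.decide_lt b1) (e6.decide_lt (e3.comp SP.fst')))
      (((SP.const 2).mul e6).add ((SP.snd'.fst.add (SP.ite ((e5.comp (SP.fst'.pair
        ((SP.snd'.fst.div (SP.const 2)).pair e6))).decide_lt (Full.ZSP.const 0))
        (SP.const 1) (SP.const 0))).mod (SP.const 2))) b1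
  have hw : ∀ k : α → ℕ, SP B k → Walk B (fun p : α × ℕ => (2 * n p.1 + 1) * 2 ^ (r p + 1))
      (fun p => T p.1 * (r p + 1)) (fun p => 2 * i p.1 % (2 * n p.1 + 1) + (2 * n p.1 + 1) * 1)
      (fun p => bw (2 * n p.1 + 1) (2 ^ (r p + 1)) (tv (n p.1) (Z p)))
      fun p w => decide (w = k p.1 + (2 * n p.1 + 1) * 1) := by
    intro k hk
    have b0 : ∀ p, 1 < 2 ^ (r p + 1) := fun p => Nat.one_lt_two_pow (by omega)
    refine ⟨e4.mul e2, (hT.comp SP.fst').mul e1,
      (((SP.const 2).mul (hi.comp SP.fst')).mod e4).add (e4.mul (SP.const 1)), fun b => ?_,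
      SP.snd'.decide_eq ((hk.comp SP.fst'.fst).add ((e4.comp SP.fst').mul (SP.const 1))),
      fun p => Red.add_mul_lt (Nat.mod_lt _ (by omega)) (b0 p), fun p w _ b => ?_⟩
    · have b1 := e4.comp (SP.fst' (β := ℕ))
      have b2 := e2.comp (SP.fst' (β := ℕ))
      have b3 := ((SP.const 2).mul (SP.snd'.div b1)).add (SP.const b.toNat)
      have b4 := SP.snd'.mod b1
      exact SP.ite (b3.decide_lt b2) (b4.add (b1.mul b3))
        ((e7.comp (SP.fst'.pair (b4.pair (b3.sub b2)))).add (b1.mul (SP.const 1)))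
    · unfold bw
      split_ifs with b1
      · exact Red.add_mul_lt (Nat.mod_lt _ (by omega)) b1
      · exact Red.add_mul_lt (tv_lt _ _ _ _) (b0 p)
  refine AP.close ((AP.walk (hw _ ((SP.const 2).mul hj))).sub
    (AP.walk (hw _ (((SP.const 2).mul hj).add (SP.const 1))))) fun x c K hx hc => ?_
  obtain ⟨h1, h2, h3⟩ := h c hc
  set R := 2 ^ (r (c, K) + 1) with hR
  have R0 : 0 < R := Nat.two_pow_pos _
  have R1 : (0 : ℝ) < R := by exact_mod_cast R0
  have a1 := fun u (hu : u < n c) v (hv : v < n c) =>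
    rd_apx R0 (z2 x (c, u, v) R ⟨hx, trivial, trivial⟩ ⟨hc, hu, hv⟩)
  have a2 : ∀ u < n c, ((∑ v ∈ range (n c), ((Z (c, K) u v).natAbs - 1) : ℕ) : ℝ) ≤ R := by
    intro u hu
    rw [Nat.cast_sum]
    refine (sum_le_sum fun v hv => (a1 u hu v (mem_range.1 hv)).1).trans ?_
    rw [← mul_sum]
    exact mul_le_of_le_one_right R1.le (h3 u hu)
  have a3 := ex_tv h2 (Z (c, K)) (fun u hu => by exact_mod_cast a2 u hu) (T c) (2 * i c) (by omega)
  have a4 := ex_lin (f := bw (2 * n c + 1) R (tv (n c) (Z (c, K)))) 1 (-1) 0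
    (fun w => ((decide (w = 2 * j c + (2 * n c + 1) * 1)).toNat : ℝ))
    (fun w => ((decide (w = 2 * j c + 1 + (2 * n c + 1) * 1)).toNat : ℝ)) (T c * (r (c, K) + 1))
    (2 * i c + (2 * n c + 1) * 1)
  simp only [one_mul, neg_mul, add_zero, ← sub_eq_add_neg] at a4
  rw [a4, if_pos (by omega), pow_mul, Nat.mul_div_cancel_left _ (by omega)] at a3
  have a5 := pw_sub (a' := rd R (Z (c, K))) (ε := 2 / R) h3 (fun u hu => by
    have b1 := a2 u hu
    rw [Nat.cast_sum, ← div_le_one R1, sum_div] at b1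
    refine le_of_eq_of_le (sum_congr rfl fun v _ => ?_) b1
    rw [rd, abs_div, abs_mul, Nat.abs_cast, Nat.abs_cast]
    split_ifs <;> simp) (fun u hu v hv => (a1 u hu v hv).2) (j c) (T c) (i c) h1
  have a6 : (8 * K * T c * n c : ℝ) ≤ R := by
    have b1 := (Nat.lt_size_self (8 * K * T c * n c)).le
    have b2 : 8 * K * T c * n c ≤ R := by
      rw [hR, pow_succ]
      exact b1.trans (Nat.le_mul_of_pos_right _ (by omega))
    exact_mod_cast b2
  dsimp only
  rw [Nat.mod_eq_of_lt (by omega), a3]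
  simp only [even_two, Even.neg_pow, one_pow, one_mul]
  refine (mul_le_mul_of_nonneg_left a5 (by positivity)).trans ?_
  rw [show 4 * (K : ℝ) * (T c * (n c * (2 / R))) = 8 * K * T c * n c / R by ring, div_le_one R1]
  exact a6

end Vale.Agent.N313M
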