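import Vale.Agent.N313M.Bin

/-! Decision, function and search problems: randomized machines are simulated in L. -/

namespace Vale.Agent.N313M

open Finset Function Vale.Agent.Lib.Space Vale.Agent.P313 Vale.Agent.P313.Red Vale.Agent.N313

/-! ### Walks -/

theorem ex_prob {σ : Type} (f : σ → Bool → σ) (u : σ) (T : ℕ) (g : σ → Bool) :
    ex f T (fun v => ((g v).toNat : ℝ)) u = prob fun ρ => g (run f u ρ T) = true := by
  rw [prob_run f u T fun v => g v = true]
  congr 1
  funext v
  cases g v <;> simp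

theorem prob_add_le {σ : Type} (f : σ → Bool → σ) (u : σ) (T : ℕ) (g : σ → Prop)
    {E : (ℕ → Bool) → Prop} (h : ∀ ρ, E ρ → ¬ g (run f u ρ T)) :
    prob E + prob (fun ρ => g (run f u ρ T)) ≤ 1 := by
  refine (add_le_add (prob_mono h) le_rfl).trans ?_
  rw [prob_run f u T fun v => ¬ g v, prob_run f u T g, ← ex_add]
  refine ex_le_one (fun v => ?_) _ _
  by_cases e : g v <;> simp [e]

section walk

variable {A α : Type} [Enc A α] {B : Bud A} {W T u0 : α → ℕ} {f : α → ℕ → Bool → ℕ}
  {g : α → ℕ → Bool}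

theorem apx_prob (h : Walk B W T u0 f g) {P : α → ℕ} (hP : SP B P) (hP0 : ∀ a, 0 < P a) :
    ∃ m : α → ℕ, SP B m ∧ ∀ (x : List A) (a : α), Enc.ok x a →
      |(m a : ℝ) - prob (fun ρ => g a (run (f a) (u0 a) ρ (T a)) = true) * P a| ≤ 2 := by
  obtain ⟨m, h1, h2⟩ := h.apx hP hP0
  exact ⟨m, h1, fun x a ha => by rw [← ex_prob]; exact h2 x a ha⟩

/-- A test for events with a probability away from one half. -/
theorem maj_prob (h : Walk B W T u0 f g) {P : α → ℕ} (hP : SP B P) (hP0 : ∀ a, 0 < P a) :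
    ∃ m : α → Bool, SP B m ∧ ∀ (x : List A) (a : α), Enc.ok x a → ∀ E : (ℕ → Bool) → Prop,
      1 / 2 + 1 / (P a : ℝ) ≤ prob E → ∀ d : Bool,
      (∀ ρ, E ρ → g a (run (f a) (u0 a) ρ (T a)) = d) → m a = d := by
  obtain ⟨m, h1, h2⟩ := apx_prob h (P := fun a => 4 * P a) ((SP.const 4).mul hP)
    fun a => by have := hP0 a; omega
  refine ⟨fun a => decide (2 * P a < m a), ((SP.const 2).mul hP).decide_lt h1,
    fun x a ha E hE d hd => ?_⟩
  have h3 := abs_le.1 (h2 x a ha)
  have h4 : (0 : ℝ) < P a := by exact_mod_cast hP0 a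
  have h5 : 1 / (P a : ℝ) * P a = 1 := by field_simp
  push_cast at h3
  cases d with
  | true =>
    have h6 := hE.trans (prob_mono hd)
    have h7 : (2 * P a : ℝ) < m a := by nlinarith
    exact decide_eq_true (by exact_mod_cast h7)
  | false =>
    have h6 := prob_add_le (f a) (u0 a) (T a) (fun v => g a v = true) (E := E)
      fun ρ e => by simp [hd ρ e]
    have h7 : (m a : ℝ) ≤ 2 * P a := by nlinarith
    exact decide_eq_false (not_lt.2 (by exact_mod_cast h7))

/-- The method of conditional probabilities. -/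
theorem walk_search (h : Walk B W T u0 f g) {P : α → ℕ} (hP : SP B P) :
    ∃ r : α → ℕ → Bool, SP B (fun p : α × ℕ => r p.1 p.2) ∧
      SP B (fun p : α × ℕ => run (f p.1) (u0 p.1) (r p.1) p.2) ∧ ∀ (x : List A) a, Enc.ok x a →
      1 ≤ ex (f a) (T a) (fun v => ((g a v).toNat : ℝ)) (u0 a) * P a →
      g a (run (f a) (u0 a) (r a) (T a)) = true := by
  have hW : ∀ a, 0 < W a := fun a => (Nat.zero_le _).trans_lt (h.lt0 a)
  have h' : Walk B (fun q : α × ℕ × ℕ => W q.1) (fun q => q.2.2) (fun q => q.2.1 % W q.1)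
      (fun q => f q.1) fun q => g q.1 :=
    ⟨h.hW.comp SP.fst', SP.snd'.snd, SP.snd'.fst.mod (h.hW.comp SP.fst'),
      fun b => (h.hf b).comp (SP.fst'.fst.pair SP.snd'), h.hg.comp (SP.fst'.fst.pair SP.snd'),
      fun q => Nat.mod_lt _ (hW _), fun q => h.lt _⟩
  obtain ⟨m, m1, m2⟩ := h'.apx (P := fun q => 2 * T q.1 * P q.1 + 1)
    (((((SP.const 2).mul h.hT).mul hP).add (SP.const 1)).comp SP.fst') fun _ => Nat.succ_pos _
  set bit : α → ℕ → ℕ → Bool := fun a i u =>
    decide (m (a, f a u false, T a - (i + 1)) < m (a, f a u true, T a - (i + 1))) with hbit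
  have hb : SP B fun q : α × ℕ × ℕ => bit q.1 q.2.1 q.2.2 := by
    have e : ∀ b, SP B fun q : α × ℕ × ℕ => m (q.1, f q.1 q.2.2 b, T q.1 - (q.2.1 + 1)) := fun b =>
      m1.comp (SP.fst'.pair (((h.hf b).comp (SP.fst'.pair SP.snd'.snd)).pair
        ((h.hT.comp SP.fst').sub (SP.snd'.fst.add (SP.const 1)))))
    exact (e false).decide_lt (e true)
  set s : α → ℕ → ℕ := fun a t =>
    Nat.rec (motive := fun _ => ℕ) (u0 a) (fun i u => f a u (bit a i u)) t with hs
  have s1 : ∀ a t, s a t < W a := fun a t => by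
    induction t with
    | zero => exact h.lt0 a
    | succ t ih => exact h.lt a _ ih _
  have s2 : SP B fun p : α × ℕ => s p.1 p.2 := by
    have hW' : SP B fun p : α × ℕ => W p.1 := h.hW.comp SP.fst'
    have hu' : SP B fun p : α × ℕ => u0 p.1 := h.hu.comp SP.fst'
    refine SP.natRec (step := fun (p : α × ℕ) i u => f p.1 u (bit p.1 i u))
      SP.snd' hu' ?_ (PBd.of_SP hW') fun x p _ k _ => (s1 _ _).le
    have e : ∀ b, SP B fun q : (α × ℕ) × ℕ × ℕ => f q.1.1 q.2.2 b := fun b =>
      (h.hf b).comp (SP.fst'.fst.pair SP.snd'.snd)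
    refine (SP.cond (hb.comp (SP.fst'.fst.pair SP.snd')) (e true) (e false)).congr fun q => ?_
    cases bit q.1.1 q.2.1 q.2.2 <;> rfl
  have s3 : ∀ a t, run (f a) (u0 a) (fun i => bit a i (s a i)) t = s a t := fun a t => by
    induction t with
    | zero => rfl
    | succ t ih => rw [run, ih]
  refine ⟨fun a i => bit a i (s a i), hb.comp (SP.fst'.pair (SP.snd'.pair s2)),
    s2.congr fun p => (s3 _ _).symm, fun x a ha h1 => ?_⟩
  set R : ℝ := ((2 * T a * P a + 1 : ℕ) : ℝ) with hR
  set G : ℕ → ℝ := fun v => ((g a v).toNat : ℝ) with hG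
  have key : ∀ i ≤ T a, ex (f a) (T a) G (u0 a) * R - 2 * i ≤ ex (f a) (T a - i) G (s a i) * R := by
    intro i
    induction i with
    | zero => intro _; simp [hs]
    | succ i ih =>
      intro hi
      have a1 := ih (by omega)
      have a2 : ∀ b, |(m (a, f a (s a i) b, T a - (i + 1)) : ℝ) -
          ex (f a) (T a - (i + 1)) G (f a (s a i) b) * R| ≤ 2 := fun b => by
        have := m2 x (a, f a (s a i) b, T a - (i + 1)) ⟨ha, trivial, trivial⟩
        rwa [Nat.mod_eq_of_lt (h.lt a _ (s1 a i) b)] at this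
      have a3 := abs_le.1 (a2 false)
      have a4 := abs_le.1 (a2 true)
      rw [show T a - i = T a - (i + 1) + 1 by omega, ex] at a1
      change _ ≤ ex (f a) _ G (f a (s a i) (bit a i (s a i))) * R
      push_cast
      cases e : bit a i (s a i) with
      | true =>
        have a5 : (m (a, f a (s a i) false, T a - (i + 1)) : ℝ) <
          m (a, f a (s a i) true, T a - (i + 1)) := by exact_mod_cast of_decide_eq_true e
        linarith
      | false =>
        have a5 : (m (a, f a (s a i) true, T a - (i + 1)) : ℝ) ≤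
          m (a, f a (s a i) false, T a - (i + 1)) := by
            exact_mod_cast not_lt.1 (of_decide_eq_false e)
        linarith
  have a1 := key _ le_rfl
  rw [Nat.sub_self, ex] at a1
  rw [s3]
  by_contra a2
  have a3 : G (s a (T a)) = 0 := by
    simp only [hG]
    rw [eq_false_of_ne_true a2]
    simp
  have a4 : 0 ≤ ex (f a) (T a) G (u0 a) := ex_nonneg (fun _ => Nat.cast_nonneg _) _ _
  have a5 : 0 < ex (f a) (T a) G (u0 a) := a4.lt_of_ne fun e => by
    rw [← e] at h1
    norm_num at h1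
  have a6 : (0 : ℝ) ≤ T a := Nat.cast_nonneg _
  rw [a3, hR] at a1
  push_cast at a1
  nlinarith

end walk

/-! ### Machines -/

variable {A : Type}

theorem run_cf {M : RandTape A} {x : List A} {l : ℕ} {ρ : ℕ → Bool}
    (h : ∀ τ, Safe l (M.conf x ρ τ)) (τ : ℕ) : Good l x.length (M.conf x ρ τ) ∧
      run (cf M x l) (enc l x.length (init M)) ρ τ = enc l x.length (M.conf x ρ τ) := by
  induction τ with
  | zero => exact ⟨good_init _ _, rfl⟩
  | succ τ ih =>
    refine ⟨good_next ih.1 (h τ) _, ?_⟩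
    rw [run, ih.2, cf, ih.1.dec_enc, if_pos ⟨ih.1.enc_lt, h τ⟩, RandTape.conf]

/-- The time bound. -/
def tm (e : ℕ) (x : List A) : ℕ := (x.length + 2) ^ e

/-- The time bound and its logarithm suffice for the machine. -/
def Suff (M : Machine A) (e : ℕ) : Prop := ∀ (x : List A) ρ,
  (∀ τ, Safe (Nat.log 2 (tm e x)) ((toR M).conf x ρ τ)) ∧
    (M.answer (M.run x ρ (tm e x)).q).isSome

variable {M : Machine A} {e : ℕ}

theorem exists_suff (hs : M.LogSpace) (ht : M.PolyTime) : ∃ e, Suff M e := by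
  obtain ⟨c, hc⟩ := window hs
  obtain ⟨k, hk⟩ := time_toR ht
  refine ⟨c + (k + 1), fun x ρ => ⟨fun τ i => ?_, ?_⟩⟩
  · have h1 := hc x ρ τ i
    have h2 : c * Nat.log 2 (x.length + 2) ≤ Nat.log 2 (tm (c + (k + 1)) x) := by
      refine Nat.le_log_of_pow_le (by omega) ?_
      rw [mul_comm, pow_mul]
      exact (Nat.pow_le_pow_left (Nat.pow_log_le_self 2 (by omega)) _).trans
        (Nat.pow_le_pow_right (by omega) (by omega))
    omega
  · have h1 : x.length ^ k ≤ (x.length + 2) ^ k := Nat.pow_le_pow_left (by omega) _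
    have h2 : k ≤ (x.length + 2) ^ k :=
      Nat.lt_two_pow_self.le.trans (Nat.pow_le_pow_left (by omega) _)
    have h3 : (x.length + 2) ^ (k + 1) ≤ tm (c + (k + 1)) x :=
      Nat.pow_le_pow_right (by omega) (by omega)
    rw [pow_succ] at h3
    rw [run_of_halt (hk x ρ) (by nlinarith [Nat.zero_le ((x.length + 2) ^ k * x.length)])]
    exact hk x ρ

theorem sp_n : SP (B0 A) fun x : Inp A => x.length := sp_len (fun _ => le_rfl) SP.id

theorem sp_tm (e : ℕ) : SP (B0 A) fun x : Inp A => tm e x := (sp_n.add (SP.const 2)).pow_const e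

theorem tm_pos (e : ℕ) (x : List A) : 0 < tm e x := by unfold tm; positivity

variable [Finite A]

theorem walkM (M : Machine A) (e : ℕ) :
    Walk (B0 A) (fun x : Inp A => Wd (toR M) (Nat.log 2 (tm e x)) x.length + 1) (fun x => tm e x)
      (fun x => enc (Nat.log 2 (tm e x)) x.length (init (toR M)))
      (fun x => cf (toR M) x (Nat.log 2 (tm e x))) fun x => cg (toR M) x (Nat.log 2 (tm e x)) true :=
  (walk_mach (toR M) (fun _ => le_rfl) true).comp (φ := fun x : Inp A => (x, tm e x))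
    (SP.id.pair (sp_tm e))

omit [Finite A] in
theorem Suff.acc (h : Suff M e) (x : List A) (ρ : ℕ → Bool) :
    cg (toR M) x (Nat.log 2 (tm e x)) true (run (cf (toR M) x (Nat.log 2 (tm e x)))
      (enc (Nat.log 2 (tm e x)) x.length (init (toR M))) ρ (tm e x)) = true ↔
      M.answer (M.run x ρ (tm e x)).q = some true := by
  classical
  obtain ⟨h1, h2⟩ := run_cf (h x ρ).1 (tm e x)
  rw [h2, cg, decide_eq_true_eq, h1.dec_enc, End, ← fc_run, act_fc]
  refine ⟨fun a => a.2.2.2.2 rfl, fun a => ⟨?_, ?_, (h x ρ).2, fun _ => rfl, fun _ => a⟩⟩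
  · rw [fc_run]
    exact h1.enc_lt
  · rw [fc_run]
    exact (h x ρ).1 _

theorem sp_em (M : Machine A) (e : ℕ) (b : Bool) : SP (B0 A) fun p : Inp A × ℕ =>
    bo (em M (view p.1 (dec (toR M) (Nat.log 2 (tm e p.1)) p.1.length p.2)) b) :=
  sp_view (F43.sp_log2 ((sp_tm e).comp SP.fst')) (pbd_pow_log (PBd.of_SP ((sp_tm e).comp SP.fst')) _)
    (sp_n.comp SP.fst') SP.snd' SP.fst' fun v => bo (em M v b)

theorem rand_decide {a b : ℝ} (ha : 0 ≤ a) (hab : a < b) :
    ∀ S ∈ Rand A a b, ∃ D : Machine A, FL D ∧ D.Decides S := by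
  rintro S ⟨M, hs, ht, h⟩
  obtain ⟨e, he⟩ := exists_suff hs ht
  obtain ⟨P, hP⟩ := exists_nat_gt (4 / (b - a))
  have hP0 : (0 : ℝ) < P := (div_pos (by norm_num) (by linarith)).trans hP
  rw [div_lt_iff₀ (by linarith)] at hP
  obtain ⟨m, m1, m2⟩ := apx_prob (walkM M e) (P := fun _ => P) (SP.const P)
    fun _ => by exact_mod_cast hP0
  obtain ⟨D, hD, hE⟩ := exists_FL (len := fun _ => 0) (w := fun _ => 0) (SP.const 0) (SP.const 0)
    ((SP.const ⌊a * P + 2⌋₊).decide_lt m1)
  refine ⟨D, hD, fun x ρ => ⟨_, _, hE x ρ, ?_⟩⟩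
  have h1 := m2 x x rfl
  rw [prob_congr (F := fun ρ => ∃ y, M.Ends x ρ true y) fun ρ => by
    rw [he.acc]
    simp only [ends_iff (he x ρ).2]
    simp] at h1
  have h2 := abs_le.1 h1
  rw [decide_eq_true_eq, Nat.floor_lt (by positivity)]
  refine ⟨fun h3 => ?_, fun h3 => ?_⟩
  · by_contra h4
    have := (h x).1 h4
    nlinarith
  · have := (h x).2 h3
    nlinarith

theorem rand_eq {a b : ℝ} (ha : 0 ≤ a) (hab : a < b) (hb : b ≤ 1) : Rand A a b = L A :=
  Set.Subset.antisymm (fun S hS => (rand_decide ha hab S hS).imp fun _ h => ⟨h.1.1, h.1.2.1, h.2⟩)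
    (L_subset ha hb)

/-- Search problems. -/
theorem search (hs : M.LogSpace) (ht : M.PolyTime) (c : ℕ) : ∃ D : Machine A, FL D ∧ ∀ x,
    1 / ((x.length : ℝ) + 2) ^ c ≤ prob (fun ρ => ∃ y, M.Ends x ρ true y) →
    ∃ r y, M.Ends x r true y ∧ ∀ ρ, D.Ends x ρ true y := by
  obtain ⟨e, he⟩ := exists_suff hs ht
  obtain ⟨r, r1, r2, r3⟩ := walk_search (walkM M e) (sp_tm c)
  have hw := fun b => (sp_em M e b).comp (SP.fst'.pair r2)
  obtain ⟨D, hD, hE⟩ := exists_FL (ans := fun _ => true) (sp_tm e)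
    (SP.cond r1 (hw true) (hw false)) (SP.const true)
  refine ⟨D, hD, fun x hx => ⟨r x, _, (ends_iff (he x _).2 _ _).2 ⟨?_, ?_⟩, hE x⟩⟩
  · refine (he.acc x _).1 (r3 x x rfl ?_)
    rw [ex_prob, prob_congr (F := fun ρ => ∃ y, M.Ends x ρ true y) fun ρ => by
      rw [he.acc]
      simp only [ends_iff (he x ρ).2]
      simp]
    rw [div_le_iff₀ (by positivity)] at hx
    simpa [tm] using hx
  · rw [out_run]
    congr 1
    funext t
    obtain ⟨h1, h2⟩ := run_cf (he x (r x)).1 t
    dsimp only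
    rw [h2, h1.dec_enc]
    cases r x t <;> simp [ob_bo]

/-- The record of the output bit number `i`. -/
def tr (i : ℕ) (o : List Bool) : ℕ := if i < o.length then i + bo o[i]? else o.length

/-- The update of the record. -/
def up (i s z : ℕ) : ℕ := if s ≤ i ∧ z ≠ 0 then (if s < i then s + 1 else i + z) else s

theorem tr_append (i : ℕ) (o : List Bool) (z : Option Bool) :
    tr i (o ++ z.toList) = up i (tr i o) (bo z) := by
  unfold tr up
  rcases z with _ | z
  · simp [bo]
  have hz : bo (some z) ≠ 0 := by cases z <;> simp [bo]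
  rcases lt_trichotomy i o.length with h | h | h
  · have h1 : bo o[i]? ≠ 0 := by
      rw [List.getElem?_eq_getElem h]
      cases o[i] <;> simp [bo]
    rw [if_pos h, if_pos (by simp; omega), if_neg (by omega), List.getElem?_append_left h]
  · subst h
    simp [hz]
  · rw [if_neg (by simp; omega), if_neg (show ¬ i < o.length by omega), if_pos ⟨h.le, hz⟩,
      if_pos h]
    simp

theorem bo_le (z : Option Bool) : bo z ≤ 2 := by rcases z with _ | _ | _ <;> simp [bo]

theorem up_lt {i s z : ℕ} (hs : s < i + 3) (hz : z ≤ 2) : up i s z < i + 3 := by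
  unfold up
  split_ifs <;> omega

theorem flatMap_getElem? (y : List Bool) {n : ℕ} (h : y.length ≤ n) :
    (List.range n).flatMap (fun t => y[t]?.toList) = y := by
  have key : ∀ n, (List.range n).flatMap (fun t => y[t]?.toList) = y.take n := by
    intro n
    induction n with
    | zero => simp
    | succ n ih => rw [List.range_succ, List.flatMap_append, ih, List.take_add_one]; simp
  rw [key, List.take_of_length_le h]

omit [Finite A] in
theorem length_out (x : List A) (ρ : ℕ → Bool) (t : ℕ) : (M.run x ρ t).out.length ≤ t := by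
  induction t with
  | zero => exact le_rfl
  | succ t ih =>
    rw [Machine.run, out_step, List.length_append]
    generalize em M _ _ = z
    cases z <;> simp <;> omega

/-- Functions. -/
theorem function (hs : M.LogSpace) (ht : M.PolyTime) (c : ℕ) : ∃ D : Machine A, FL D ∧
    ∀ x d y, 1 / 2 + 1 / ((x.length : ℝ) + 2) ^ c ≤ prob (fun ρ => M.Ends x ρ d y) →
    ∀ ρ, D.Ends x ρ d y := by
  obtain ⟨e, he⟩ := exists_suff hs ht
  have h := walkM M e
  obtain ⟨ans, a1, a2⟩ := maj_prob h (sp_tm c) (tm_pos c)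
  set W : Inp A → ℕ := fun x => Wd (toR M) (Nat.log 2 (tm e x)) x.length + 1 with hW
  set f : Inp A → ℕ → Bool → ℕ := fun x => cf (toR M) x (Nat.log 2 (tm e x)) with hf
  set u0 : Inp A → ℕ := fun x => enc (Nat.log 2 (tm e x)) x.length (init (toR M)) with hu
  set z : Inp A → ℕ → Bool → ℕ := fun x u b =>
    bo (em M (view x (dec (toR M) (Nat.log 2 (tm e x)) x.length u)) b) with hz
  set F : Inp A × ℕ → ℕ → Bool → ℕ := fun p w b =>
    f p.1 (w % W p.1) b + W p.1 * up p.2 (w / W p.1) (z p.1 (w % W p.1) b) with hF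
  have hW0 : ∀ x, 0 < W x := fun x => Nat.succ_pos _
  have h' : ∀ j, Walk (B0 A) (fun p : Inp A × ℕ => W p.1 * (p.2 + 3)) (fun p => tm e p.1)
      (fun p => u0 p.1) F fun p w => decide (w / W p.1 = p.2 + j) := by
    intro j
    have b0 : SP (B0 A) fun q : (Inp A × ℕ) × ℕ => q.1.1 := SP.fst'.fst
    have b1 := h.hW.comp b0
    have b2 := SP.snd'.mod b1
    have b3 := SP.snd'.div b1
    have b4 : SP (B0 A) fun q : (Inp A × ℕ) × ℕ => q.1.2 := SP.fst'.snd
    refine ⟨(h.hW.comp SP.fst').mul (SP.snd'.add (SP.const 3)), h.hT.comp SP.fst',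
      h.hu.comp SP.fst', fun b => ?_, b3.decide_eq (b4.add (SP.const j)),
      fun p => (h.lt0 _).trans_le (Nat.le_mul_of_pos_right _ (by omega)), fun p w hw b =>
        add_mul_lt (h.lt _ _ (Nat.mod_lt _ (hW0 _)) b)
          (up_lt (Nat.div_lt_of_lt_mul hw) (bo_le _))⟩
    have b5 := (sp_em M e b).comp (b0.pair b2)
    refine ((h.hf b).comp (b0.pair b2)).add (b1.mul ?_)
    unfold up
    exact SP.ite (SP.decide_and (b3.decide_le b4) (b5.decide_ne (SP.const 0)))
      (SP.ite (b3.decide_lt b4) (b3.add (SP.const 1)) (b4.add b5)) b3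
  have key : ∀ x i ρ t, run (F (x, i)) (u0 x) ρ t =
      enc (Nat.log 2 (tm e x)) x.length ((toR M).conf x ρ t) + W x * tr i (M.run x ρ t).out := by
    intro x i ρ t
    induction t with
    | zero => simp [run, hu, tr, Machine.run, RandTape.conf, init]
    | succ t ih =>
      obtain ⟨h1, h2⟩ := run_cf (he x ρ).1 t
      have h3 := (run_cf (he x ρ).1 (t + 1)).2
      have h4 : _ < W x := h1.enc_lt.trans (Nat.lt_succ_self _)
      rw [run, h2] at h3
      rw [run, ih, Machine.run, out_step, tr_append, fc_run, ← h3]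
      simp only [hF]
      rw [Nat.add_mul_mod_self_left, Nat.mod_eq_of_lt h4, add_mul_div h4]
      simp only [hz]
      rw [h1.dec_enc]
  choose m m1 m2 using fun j => maj_prob (h' j) ((sp_tm c).comp SP.fst') fun p => tm_pos c p.1
  obtain ⟨D, hD, hE⟩ := exists_FL (sp_tm e)
    (SP.cond (m1 1) (SP.const 1) (SP.cond (m1 2) (SP.const 2) (SP.const 0))) a1
  refine ⟨D, hD, fun x d y hx ρ => ?_⟩
  have hx' : 1 / 2 + 1 / (tm c x : ℝ) ≤ prob fun ρ => M.Ends x ρ d y := by simpa [tm] using hx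
  have b1 : ans x = d := a2 x x rfl _ hx' d fun ρ hρ => by
    have b2 := ((ends_iff (he x ρ).2 _ _).1 hρ).1
    rw [Bool.eq_iff_iff, he.acc, b2]
    simp
  have b2 : ∀ i j, m j (x, i) = decide (tr i y = i + j) := fun i j =>
    m2 j x (x, i) ⟨rfl, trivial⟩ _ hx' _ fun ρ hρ => by
      have b3 := ((ends_iff (he x ρ).2 _ _).1 hρ).2
      dsimp only
      rw [key, add_mul_div ((run_cf (he x ρ).1 _).1.enc_lt.trans (Nat.lt_succ_self _)), b3]
  have b3 : ∃ ρ, M.Ends x ρ d y := by
    by_contra b4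
    rw [prob_congr (F := fun _ => False) fun ρ => ⟨fun a => b4 ⟨ρ, a⟩, False.elim⟩,
      prob_false] at hx'
    have : (0 : ℝ) ≤ 1 / (tm c x : ℝ) := by positivity
    linarith
  obtain ⟨ρ0, b3⟩ := b3
  have b4 : y.length ≤ tm e x := ((ends_iff (he x ρ0).2 _ _).1 b3).2 ▸ length_out x ρ0 _
  have b5 := hE x ρ
  rw [b1] at b5
  convert b5 using 1
  rw [← flatMap_getElem? y b4]
  congr 1
  funext t
  rw [b2, b2, tr]
  rcases lt_or_ge t y.length with b6 | b6
  · rw [if_pos b6, List.getElem?_eq_getElem b6]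
    cases y[t] <;> simp [bo, ob]
  · rw [if_neg (by omega), List.getElem?_eq_none b6, decide_eq_false (by omega),
      decide_eq_false (by omega)]
    rfl

end Vale.Agent.N313M
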