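import Vale.Agent.N313M.Defs
import Vale.Agent.N313.Main

/-! The machines of the definitions are simulated by the randomized multitape machines. -/

namespace Vale.Agent.N313M

open Finset Function MeasureTheory Filter Asymptotics Vale.Agent.Lib.Space Vale.Agent.P313
  Vale.Agent.P313.Red Vale.Agent.N313

/-! ### Probabilities -/

theorem prob_mono {E F : (ℕ → Bool) → Prop} (h : ∀ ρ, E ρ → F ρ) : prob E ≤ prob F :=
  measureReal_mono fun ρ hρ => h ρ hρ

theorem prob_congr {E F : (ℕ → Bool) → Prop} (h : ∀ ρ, E ρ ↔ F ρ) : prob E = prob F :=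
  le_antisymm (prob_mono fun ρ => (h ρ).1) (prob_mono fun ρ => (h ρ).2)

open Classical in
theorem prob_run {σ : Type} (f : σ → Bool → σ) (u : σ) (T : ℕ) (g : σ → Prop) :
    prob (fun ρ => g (run f u ρ T)) = ex f T (fun v => if g v then 1 else 0) u := by
  set μ := Measure.infinitePi fun _ : ℕ => ProbabilityTheory.uniformOn (Set.univ : Set Bool)
  set π : (ℕ → Bool) → Fin T → Bool := fun ρ i => ρ i with hπ
  set e : (Fin T → Bool) → ℕ → Bool := fun r τ => if h : τ < T then r ⟨τ, h⟩ else false with he
  have hm : Measurable π := by fun_prop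
  have h1 : {ρ | g (run f u ρ T)} = π ⁻¹' ↑(univ.filter fun r => g (run f u (e r) T)) := by
    ext ρ
    have : run f u (e (π ρ)) T = run f u ρ T := run_congr _ fun i hi => by simp [he, hπ, hi]
    simp [this]
  have h2 : ∀ r, μ.real (π ⁻¹' {r}) = 1 / 2 ^ T := by
    intro r
    have : π ⁻¹' {r} = Set.pi (↑(range T)) fun i => {e r i} := by
      ext ρ
      simp only [Set.mem_preimage, Set.mem_singleton_iff, Set.mem_pi, coe_range, Set.mem_Iio, he,
        hπ, funext_iff]
      exact ⟨fun h i hi => by rw [dif_pos hi, ← h], fun h i => by rw [h i i.2, dif_pos i.2]⟩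
    rw [this, Measure.real, Measure.infinitePi_pi _ fun _ _ => measurableSet_singleton _]
    simp only [ProbabilityTheory.uniformOn_univ, Measure.count_singleton, Fintype.card_bool,
      prod_const, card_range]
    simp
  rw [prob, h1, ← sum_measureReal_preimage_singleton _ fun r _ => hm (measurableSet_singleton r),
    sum_congr rfl fun r _ => h2 r, sum_const, nsmul_eq_mul, mul_one_div,
    div_eq_iff (by positivity), mul_comm, ← N313.sum_run, sum_boole]

theorem prob_true : prob (fun _ => True) = 1 := probReal_univ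

theorem prob_false : prob (fun _ => False) = 0 := by simp [prob]

/-! ### The simulation -/

variable {A : Type}

/-- The move with a given sign. -/
def mv : SignType → Move
  | .neg => .left
  | .zero => .stay
  | .pos => .right

/-- Translation of the input symbols. -/
def sy : InSym A → A ⊕ Bool
  | .first => .inr false
  | .last => .inr true
  | .letter a => .inl a

theorem cell_eq (x : List A) (p : ℕ) : cell x p = sy (inAt x p) := by
  cases p with
  | zero => rfl
  | succ p =>
    rw [cell, List.getD_cons_succ, List.getD_eq_getElem?_getD, List.getElem?_map, inAt]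
    cases x[p]? <;> rfl

theorem mv_app (s : SignType) (p : ℤ) : (mv s).app p = p + s := by
  cases s <;> simp [mv, Move.app, sub_eq_add_neg]

theorem mv_appIn (s : SignType) {n p : ℕ} (h : p ≤ n + 1) :
    (mv s).appIn n p = min (p + (s : ℤ)).toNat (n + 1) := by
  cases s <;> simp [mv, Move.appIn] <;> omega

/-- The randomized multitape machine of a machine. -/
def toR (M : Machine A) : RandTape A where
  Sym := Bool
  Tape := Fin M.k
  State := M.Q
  finSym := inferInstance
  finTape := inferInstance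
  finState := M.fin
  blank := false
  start := M.start
  accept := {q | M.answer q = some true}
  step q a r := if (M.answer q).isSome then none else some fun b =>
    ((M.δ q (sy a) r b).1, mv (M.δ q (sy a) r b).2.1,
      fun i => (((M.δ q (sy a) r b).2.2.1 i).1, mv ((M.δ q (sy a) r b).2.2.1 i).2))

variable {M : Machine A} {x : List A}

/-- The configuration without the output. -/
def fc (c : M.Conf) : (toR M).Conf := ⟨c.q, c.pos, c.tape, c.head⟩

/-- The output of a step. -/
def em (M : Machine A) (v : (toR M).State × InSym A × ((toR M).Tape → (toR M).Sym)) (b : Bool) :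
    Option Bool :=
  if (M.answer v.1).isSome then none else (M.δ v.1 (sy v.2.1) v.2.2 b).2.2.2

theorem act_fc (c : M.Conf) : (toR M).act x (fc c) = none ↔ (M.answer c.q).isSome := by
  unfold RandTape.act
  simp only [toR, fc]
  split_ifs with h <;> simp [h]

theorem step_of_halt {c : M.Conf} (h : (M.answer c.q).isSome) (b : Bool) : M.step x c b = c :=
  if_pos h

theorem fc_step {c : M.Conf} (h : c.pos ≤ x.length + 1) (b : Bool) :
    fc (M.step x c b) = (toR M).next x (fc c) b := by
  by_cases e : (M.answer c.q).isSome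
  · rw [step_of_halt e, next_of_halt ((act_fc c).2 e)]
  · have h1 : (toR M).act x (fc c) = some _ := if_neg e
    unfold RandTape.next
    rw [h1, Machine.step, if_neg e]
    simp only [fc, cell_eq, mv_app, mv_appIn _ h]
    rfl

theorem pos_step {c : M.Conf} (h : c.pos ≤ x.length + 1) (b : Bool) :
    (M.step x c b).pos ≤ x.length + 1 := by
  unfold Machine.step
  split_ifs
  · exact h
  · exact min_le_right _ _

theorem out_step (c : M.Conf) (b : Bool) :
    (M.step x c b).out = c.out ++ (em M (view x (fc c)) b).toList := by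
  by_cases h : (M.answer c.q).isSome
  · have : em M (view x (fc c)) b = none := if_pos h
    rw [step_of_halt h, this]
    simp
  · have : em M (view x (fc c)) b = _ := if_neg h
    rw [this, Machine.step, if_neg h, cell_eq]
    rfl

theorem pos_run (ρ : ℕ → Bool) (t : ℕ) : (M.run x ρ t).pos ≤ x.length + 1 := by
  induction t with
  | zero => exact Nat.zero_le _
  | succ t ih => exact pos_step ih _

theorem fc_run (ρ : ℕ → Bool) (t : ℕ) : fc (M.run x ρ t) = (toR M).conf x ρ t := by
  induction t with
  | zero => rfl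
  | succ t ih => rw [Machine.run, fc_step (pos_run ρ t), ih, RandTape.conf]

theorem q_run (ρ : ℕ → Bool) (t : ℕ) : (M.run x ρ t).q = ((toR M).conf x ρ t).state := by
  rw [← fc_run]; rfl

theorem head_run (ρ : ℕ → Bool) (t : ℕ) : (M.run x ρ t).head = ((toR M).conf x ρ t).head := by
  rw [← fc_run]; rfl

theorem out_run (ρ : ℕ → Bool) (t : ℕ) : (M.run x ρ t).out =
    (List.range t).flatMap fun s => (em M (view x ((toR M).conf x ρ s)) (ρ s)).toList := by
  induction t with
  | zero => rfl
  | succ t ih => rw [Machine.run, out_step, ih, fc_run, List.range_succ, List.flatMap_append]; simp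

theorem run_of_halt {ρ : ℕ → Bool} {t s : ℕ} (h : (M.answer (M.run x ρ t).q).isSome)
    (hs : t ≤ s) : M.run x ρ s = M.run x ρ t := by
  induction s, hs using Nat.le_induction with
  | base => rfl
  | succ s _ ih => rw [Machine.run, ih, step_of_halt h]

theorem ends_iff {ρ : ℕ → Bool} {T : ℕ} (h : (M.answer (M.run x ρ T).q).isSome) (d : Bool)
    (y : List Bool) :
    M.Ends x ρ d y ↔ M.answer (M.run x ρ T).q = some d ∧ (M.run x ρ T).out = y := by
  refine ⟨fun ⟨t, h1, h2⟩ => ?_, fun h => ⟨T, h⟩⟩
  rcases le_total t T with e | e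
  · rw [run_of_halt (by rw [h1]; rfl) e]
    exact ⟨h1, h2⟩
  · rw [run_of_halt h e] at h1 h2
    exact ⟨h1, h2⟩

theorem halts_toR {T : ℕ} : (toR M).HaltsWithin x T ↔ ∀ ρ, (M.answer (M.run x ρ T).q).isSome := by
  refine forall_congr' fun ρ => ?_
  rw [← fc_run, act_fc]

theorem poly_le (p : Polynomial ℕ) : ∃ k, ∀ n, p.eval n ≤ n ^ k + k := by
  refine ⟨p.natDegree + p.eval 1 + p.eval 0 + 1, fun n => ?_⟩
  have h1 : ∀ m, 1 ≤ m → p.eval m ≤ p.eval 1 * m ^ p.natDegree := by
    intro m hm
    rw [Polynomial.eval_eq_sum_range, Polynomial.eval_eq_sum_range, sum_mul]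
    refine sum_le_sum fun i hi => ?_
    rw [one_pow, mul_one]
    exact Nat.mul_le_mul_left _ (Nat.pow_le_pow_right hm (Nat.lt_succ_iff.1 (mem_range.1 hi)))
  rcases Nat.lt_or_ge n 2 with h | h
  · interval_cases n
    · omega
    · rw [one_pow]
      omega
  · refine (h1 n (by omega)).trans (le_trans ?_ (Nat.le_add_right _ _))
    have h2 : p.eval 1 ≤ n ^ p.eval 1 := Nat.lt_two_pow_self.le.trans (Nat.pow_le_pow_left h _)
    calc p.eval 1 * n ^ p.natDegree ≤ n ^ p.eval 1 * n ^ p.natDegree := Nat.mul_le_mul_right _ h2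
      _ = n ^ (p.natDegree + p.eval 1) := by ring
      _ ≤ _ := Nat.pow_le_pow_right (by omega) (by omega)

theorem time_toR (h : M.PolyTime) :
    ∃ k, ∀ (x : List A) ρ, (M.answer (M.run x ρ (x.length ^ k + k)).q).isSome := by
  obtain ⟨p, hp⟩ := h
  obtain ⟨k, hk⟩ := poly_le p
  exact ⟨k, fun x ρ => by rw [run_of_halt (hp x ρ) (hk _)]; exact hp x ρ⟩

theorem polyTime_of {k : ℕ}
    (h : ∀ (x : List A) ρ, (M.answer (M.run x ρ ((x.length + 2) ^ k)).q).isSome) : M.PolyTime :=
  ⟨(Polynomial.X + 2) ^ k, fun x ρ => by simpa using h x ρ⟩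

theorem uses_toR {s : ℕ}
    (h : ∀ ρ, {z : Fin M.k × ℤ | ∃ t, (M.run x ρ t).head z.1 = z.2}.encard ≤ s) :
    (toR M).UsesAtMost x s := by
  intro ρ
  have hf := Set.finite_of_encard_le_coe (h ρ)
  refine ⟨hf.toFinset, ?_, fun τ i => hf.mem_toFinset.2 ⟨τ, by rw [head_run]⟩⟩
  have := h ρ
  rw [hf.encard_eq_coe_toFinset_card] at this
  exact_mod_cast this

theorem log_isBigO (C : ℕ) :
    (fun n : ℕ => ((C * Nat.log 2 (n + 2) : ℕ) : ℝ)) =O[atTop] fun n : ℕ => Real.log n := by
  refine IsBigO.of_bound (4 * C) (eventually_atTop.2 ⟨2, fun n hn => ?_⟩)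
  have h1 := (log_le_of_le_pow (b := n) (Z := n) (c := 2) (by nlinarith)).1
  rw [Real.norm_natCast, Real.norm_of_nonneg (Real.log_natCast_nonneg _)]
  push_cast at h1 ⊢
  have : (0 : ℝ) ≤ C := Nat.cast_nonneg _
  nlinarith

/-- The heads stay in a window of logarithmic size. -/
theorem window (h : M.LogSpace) : ∃ c : ℕ, ∀ (x : List A) ρ τ i,
    (((toR M).conf x ρ τ).head i).natAbs < c * Nat.log 2 (x.length + 2) := by
  obtain ⟨s, hs, h⟩ := h
  obtain ⟨C, hC⟩ := hs.bound
  obtain ⟨N, hN⟩ := eventually_atTop.1 hC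
  refine ⟨2 * ⌈|C|⌉₊ + (range N).sup s + 1, fun x ρ τ i => ?_⟩
  have h1 : 1 ≤ Nat.log 2 (x.length + 2) := Nat.le_log_of_pow_le (by omega) (by omega)
  have h2 : (((toR M).conf x ρ τ).head i).natAbs ≤ s x.length := by
    exact_mod_cast head_le_space (uses_toR (h x)) ρ τ i
  rcases le_or_gt N x.length with e | e
  · have h3 := hN _ e
    rw [Real.norm_natCast, Real.norm_of_nonneg (Real.log_natCast_nonneg _)] at h3
    have h4 : Real.log x.length ≤ 2 * Nat.log 2 (x.length + 2) := by
      rcases Nat.eq_zero_or_pos x.length with h0 | h0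
      · rw [h0, Nat.cast_zero, Real.log_zero]
        positivity
      have h4 : x.length ≤ 2 ^ (Nat.log 2 (x.length + 2) + 1) :=
        (Nat.le_add_right _ 2).trans (Nat.lt_pow_succ_log_self (by omega) _).le
      have h5 : Real.log x.length ≤ Real.log (2 ^ (Nat.log 2 (x.length + 2) + 1)) :=
        Real.log_le_log (by exact_mod_cast h0) (by exact_mod_cast h4)
      rw [Real.log_pow] at h5
      have h6 : Real.log 2 ≤ 1 := by linarith [Real.log_two_lt_d9]
      have h7 : (1 : ℝ) ≤ Nat.log 2 (x.length + 2) := by exact_mod_cast h1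
      push_cast at h5
      nlinarith
    have h8 : C * Real.log x.length ≤ ⌈|C|⌉₊ * (2 * Nat.log 2 (x.length + 2)) :=
      mul_le_mul ((le_abs_self C).trans (Nat.le_ceil _)) h4 (Real.log_natCast_nonneg _)
        (by positivity)
    have h9 : s x.length ≤ ⌈|C|⌉₊ * (2 * Nat.log 2 (x.length + 2)) := by
      exact_mod_cast h3.trans h8
    nlinarith [Nat.zero_le ((range N).sup s * Nat.log 2 (x.length + 2))]
  · have h3 : s x.length ≤ (range N).sup s := le_sup (mem_range.2 e)
    nlinarith [Nat.zero_le (⌈|C|⌉₊ * Nat.log 2 (x.length + 2))]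

theorem run_det (h : M.Det) (ρ ρ' : ℕ → Bool) (t : ℕ) : M.run x ρ t = M.run x ρ' t := by
  induction t with
  | zero => rfl
  | succ t ih =>
    have : ∀ q a r b b', M.δ q a r b = M.δ q a r b' := fun q a r b b' => by
      cases b <;> cases b' <;> simp [h q a r]
    rw [Machine.run, Machine.run, ih, Machine.step, Machine.step, this _ _ _ (ρ t) (ρ' t)]

/-- A deterministic machine with logarithmic space which halts needs polynomial time. -/
theorem polyTime_of_det (hd : M.Det) (hs : M.LogSpace)
    (h : ∀ x, ∃ ρ d y, M.Ends x ρ d y) : M.PolyTime := by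
  obtain ⟨c, hc⟩ := window hs
  obtain ⟨e, he⟩ := exists_Wd_le (toR M)
  refine polyTime_of (k := (c + 1) * e) fun x ρ => ?_
  obtain ⟨ρ0, d, y, t, h1, -⟩ := h x
  have h2 : (toR M).HaltsWithin x t := halts_toR.2 fun ρ' => by rw [run_det hd ρ' ρ0, h1]; rfl
  have h3 := halts_toR.1 (haltsWithin_Wd (S := c * Nat.log 2 (x.length + 2)) h2 fun ρ τ i => by
    have := hc x ρ τ i
    omega) ρ
  rw [run_of_halt h3 ((he _ _).trans ?_)]
  · exact h3
  · rw [mul_comm c, pow_mul 2, pow_mul (x.length + 2), pow_succ]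
    exact Nat.pow_le_pow_left (Nat.mul_le_mul_right _ (Nat.pow_le_pow_left
      (Nat.pow_log_le_self 2 (by omega)) _)) _

theorem L_subset {a b : ℝ} (ha : 0 ≤ a) (hb : b ≤ 1) : L A ⊆ Rand A a b := by
  rintro S ⟨M, hd, hs, h⟩
  refine ⟨M, hs, polyTime_of_det hd hs fun x => ?_, fun x => ?_⟩
  · obtain ⟨d, y, h1, -⟩ := h x fun _ => false
    exact ⟨_, d, y, h1⟩
  · have key : ∀ ρ, (∃ y, M.Ends x ρ true y) ↔ x ∈ S := by
      intro ρ
      obtain ⟨d, y, ⟨t, h1, h2⟩, h3⟩ := h x ρ
      simp only [ends_iff (T := t) (by rw [h1]; rfl), h1, ← h3]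
      simp
    refine ⟨fun hx => ?_, fun hx => ?_⟩
    · rw [prob_congr (F := fun _ => False) fun ρ => by rw [key]; simpa using hx, prob_false]
      exact ha
    · rw [prob_congr (F := fun _ => True) fun ρ => by rw [key]; simpa using hx, prob_true]
      exact hb

end Vale.Agent.N313M
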